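import Vale.Agent.P286EH.Gal

/-!
# Galois descent with a cover which is trivial on some objects
-/

set_option linter.all false

namespace Vale.Agent.P286EJG

open CategoryTheory Vale.Agent.P286 Vale.Agent.P286.St Vale.Agent.P286.H847
  Vale.Agent.P286.H353 Vale.Agent.P286.H652 Vale.Agent.P286EG Vale.Agent.P286E Vale.Agent.P286EH
  TensorProduct

noncomputable section

section Desc

variable {A B B' : Type} [CommRing A] [CommRing B] [CommRing B']

/-- The map `b ⊗ x ↦ r b ⊗ x`. -/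
def tm {f : A →+* B} {f' : A →+* B'} (r : B →+ B') (hr : ∀ a b, r (f a * b) = f' a * r b)
    (P : MCx A) : AH (bcx f P) (bcx f' P) :=
  letI : Module A B := Module.compHom B f
  letI : Module A B' := Module.compHom B' f'
  let r' : B →ₗ[A] B' := ⟨⟨r, map_add r⟩, hr⟩
  ⟨fun i => (r'.rTensor (P.X i)).toAddMonoidHom, fun i j _ x => bc_ext
    (u := (r'.rTensor (P.X j)).toAddMonoidHom.comp ((bcx f P).d i j).toAddMonoidHom)
    (v := ((bcx f' P).d i j).toAddMonoidHom.comp (r'.rTensor (P.X i)).toAddMonoidHom)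
    (fun _ _ => rfl) x⟩

theorem tm_el {f : A →+* B} {f' : A →+* B'} (r : B →+ B') (hr : ∀ a b, r (f a * b) = f' a * r b)
    (P : MCx A) (i : ℤ) (b : B) (x : P.X i) :
    (tm r hr P).f i (ExtS.el f b x) = ExtS.el f' (r b) x := rfl

/-- Descent along a map with a linear retraction. -/
theorem DB.desc {f : A →+* B} {g : B →+* B'} {M : AG A} {N : AG B} {N' : AG B'}
    {t : GD.Hom M.G N.G} {t' : GD.Hom M.G N'.G} (h : DB (g.comp f) M N' t') (ht : Sl f M N t)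
    (u : GD.Hom N.G N'.G) (hu : Sl g N N' u) (e : ∀ x, u.f (t.f x) = t'.f x) (r : B' →+ B)
    (hr : ∀ a b, r (g a * b) = a * r b) (r1 : r 1 = 1) (s : GD.Hom N'.G N.G)
    (hs : ∀ b x, s.f (N'.fn b (t'.f x)) = N.fn (r b) (t.f x))
    (su : ∀ m, ∀ x ∈ N.G.gr m, s.f (u.f x) = x) : DB f M N t := by
  refine ⟨ht, fun P p hP hp => ?_⟩
  have q' := h.2 P p hP hp
  let α := tm (f := f) (f' := g.comp f) g.toAddMonoidHom (fun a b => map_mul g _ _) P
  let β := tm (f := g.comp f) (f' := f) r (fun a b => hr _ _) P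
  have a0 : ∀ i x, β.f i (α.f i x) = x := fun i => bc_ext (u := (β.f i).comp (α.f i))
    (v := AddMonoidHom.id _) fun b x => congrArg (ExtS.el f · x) (by
      have := hr b 1
      rwa [mul_one, r1, mul_one] at this)
  have a1 : ∀ i x, (ah N N' u).f i ((bm _ (ht.sl.comp p)).f i x) =
      (bm _ (h.1.sl.comp p)).f i (α.f i x) := fun i => bc_ext
    (u := ((ah N N' u).f i).comp ((bm _ (ht.sl.comp p)).f i))
    (v := ((bm _ (h.1.sl.comp p)).f i).comp (α.f i))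
    fun b x => N'.val_inj ((hu b _).trans (congrArg (N'.fn (g b)) (e _)))
  have a2 : ∀ i x, (ah N' N s).f i ((bm _ (h.1.sl.comp p)).f i x) =
      (bm _ (ht.sl.comp p)).f i (β.f i x) := fun i => bc_ext
    (u := ((ah N' N s).f i).comp ((bm _ (h.1.sl.comp p)).f i))
    (v := ((bm _ (ht.sl.comp p)).f i).comp (β.f i)) fun b x => N.val_inj (hs b _)
  intro i j k hi hj
  refine ⟨?_, fun y hy => ?_⟩
  · rintro x hx ⟨y, ey⟩
    obtain ⟨x', ex⟩ := (q' i j k hi hj).1 (α.f j x) (by rw [← AH.comm _ j k hj, hx, map_zero])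
      ⟨(ah N N' u).f i y, by rw [← AH.comm _ i j hi, ey, a1]⟩
    exact ⟨β.f i x', by rw [← AH.comm _ i j hi, ex, a0]⟩
  · obtain ⟨x, hx, y', ey⟩ := (q' i j k hi hj).2 ((ah N N' u).f j y)
      (by rw [← AH.comm _ j k hj, hy, map_zero])
    refine ⟨β.f j x, by rw [← AH.comm _ j k hj, hx, map_zero], (ah N' N s).f i y', ?_⟩
    rw [← AH.comm _ i j hi, ey, map_sub, a2]
    exact congrArg (· - _) (N.val_inj (su j _ (N.val_mem _)))

end Desc

variable {S T : TSite} {K : Type}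

/-- The data of a Galois descent. -/
structure Gal2 (j : EtF T S) (cv : EtF S T) (K : Type) [Group K] [Fintype K] where
  un : Un j cv
  dk : K → Ar cv cv
  one : ∀ X, Sim ((dk 1).τ X) (𝟙 _)
  mul : ∀ k l X, Sim ((dk k).τ X ≫ (dk l).τ X) ((dk (l * k)).τ X)
  fmul : ∀ k l X b, S.f ((dk l).τ X) (S.f ((dk k).τ X) b) = S.f ((dk (l * k)).τ X) b
  un_dk : ∀ k X, Sim (un.ι X ≫ j.map ((dk k).τ X)) (un.ι X)
  bij : ∀ Z, Function.Bijective (j.i Z)
  po : ∀ (X Y : T.C) (φ : X ⟶ Y), PO (T.f φ).r (cv.i X : T.R X →+* S.R (cv.ob X))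
    (cv.i Y : T.R Y →+* S.R (cv.ob Y)) (S.f (cv.map φ)).r ∨
      (Function.Bijective (cv.i X) ∧ ∀ k, Sim ((dk k).τ X) (𝟙 _))
  inj : ∀ X, Function.Injective (cv.i X)
  inv : ∀ X b, (∀ k, S.f ((dk k).τ X) b = b) → ∃ a, cv.i X a = b
  ev : ∀ Z, cv.ob (j.ob Z) ⟶ Z
  ev_i : ∀ Z a, S.f (ev Z) (cv.i _ (j.i Z a)) = a
  ev_unit : ∀ Z, IsUnit (S.dl (ev Z))
  ev_b : ∀ Z v, S.dl (ev Z) * -S.f (ev Z) (cv.b _ (j.lf Z v) + cv.i _ (j.b Z v)) =
    S.s • v (S.dl (ev Z))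
  ev_nat : ∀ {Z Z' : S.C} (ψ : Z ⟶ Z'), ∃ k,
    Sim (cv.map (j.map ψ) ≫ ev Z') ((dk k).τ (j.ob Z) ≫ ev Z ≫ ψ)
  idem : ∀ Z, (∃ ε : S.R (cv.ob (j.ob Z)), ∑ k, S.f ((dk k).τ (j.ob Z)) ε = 1 ∧
    (∀ k, k ≠ 1 → S.f ((dk k).τ (j.ob Z)) ε * ε = 0) ∧
    (∀ b, ε * b = ε * cv.i _ (j.i Z (S.f (ev Z) b))) ∧ S.f (ev Z) ε = 1) ∨
    ((∀ k, Sim ((dk k).τ (j.ob Z)) (𝟙 _)) ∧ Function.Bijective (S.f (ev Z)))

namespace Gal2

variable [Group K] [Fintype K] {j : EtF T S} {cv : EtF S T} (G : Gal2 j cv K)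

theorem isAct (F : GTD S) : IsAct (cv.act G.dk F) := fun k l X x =>
  (F.comp _ _ _ ((G.dk k).τ X) ((G.dk l).τ X) x).symm.trans (G.mul k l X F x)

theorem pres : Pres (gqis S) (gqis T) (cv.cutD G.dk).z0 := fun F F' a ha X =>
  cut_qis (G.isAct (gt F)) (G.isAct (gt F')) (gh a (cv.ob X)) (ha _) _ (fun _ => rfl)
    fun k x => ((gz a).tr ((G.dk k).τ X) x).symm

theorem un_inv (F : GTD T) (X : T.C) (x : (F.F X).V) :
    (F.tr (G.un.ι X)).f x ∈ invs (cv.act G.dk (j.push F)) X := fun k =>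
  (F.comp _ _ _ (G.un.ι X) (j.map ((G.dk k).τ X)) x).symm.trans (G.un_dk k X F x)

/-- The unit. -/
def unH (F : GTD T) : GHom F (cut (cv.act G.dk (j.push F))) where
  f X := ⟨(F.tr (G.un.ι X)).f, (F.tr (G.un.ι X)).comm, fun m x hx =>
    ⟨(F.tr (G.un.ι X)).deg m x hx, G.un_inv F X x⟩⟩
  fn := (G.un.hom F).fn
  vf := (G.un.hom F).vf
  tr := (G.un.hom F).tr

/-- The unit. -/
def unN : GNat (DGF.id (gtc T)) (j.pushD.comp (cv.cutD G.dk)) :=
  ⟨fun F => G.unH F, fun z X x => (GTD.Coch.tr z (G.un.ι X) x).symm⟩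

theorem exists_r (X : T.C) : ∃ r : T.R (j.ob (cv.ob X)) →+ T.R X, ∀ b, cv.i X (r (j.i _ b)) =
    (Fintype.card K : ℂ)⁻¹ • ∑ k, S.f ((G.dk k).τ X) b := by
  have h : ∀ b : S.R (cv.ob X), ∃ a, cv.i X a =
      (Fintype.card K : ℂ)⁻¹ • ∑ k, S.f ((G.dk k).τ X) b := fun b => G.inv X _ fun l => by
    rw [map_smul, map_sum]
    simp only [G.fmul _ l]
    exact congrArg _ (Fintype.sum_equiv (Equiv.mulLeft l) _ _ fun _ => rfl)
  choose r hr using h
  let e := RingEquiv.ofBijective (j.i (cv.ob X)) (G.bij _)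
  refine ⟨(AddMonoidHom.mk' r fun a b => G.inj X ?_).comp e.symm.toAddMonoidHom, fun b => ?_⟩
  · simp only [map_add, hr, Finset.sum_add_distrib, smul_add]
  · exact (congrArg (fun c => cv.i X (r c)) (e.symm_apply_apply b)).trans (hr b)

theorem un_qis (F : GTD T) (hF : GC F) (X : T.C) : GD.Qis ((G.unH F).f X) := by
  obtain ⟨r, hr⟩ := G.exists_r X
  have h0 : (Fintype.card K : ℂ) ≠ 0 := Nat.cast_ne_zero.2 Fintype.card_ne_zero
  have hl : ∀ a b, r ((T.f (G.un.ι X)).r a * b) = a * r b := fun a b => by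
    obtain ⟨b, rfl⟩ := (G.bij _).2 b
    refine G.inj X ?_
    rw [show (T.f (G.un.ι X)).r a = j.i _ (cv.i X a) from G.un.f_i X a, ← map_mul, hr, map_mul, hr]
    simp only [map_mul, (G.dk _).f_i, Finset.mul_sum, Finset.smul_sum, mul_smul_comm]
  have h1 : r 1 = 1 := G.inj X (by
    rw [← map_one (j.i _), hr]
    simp only [map_one, Finset.sum_const, Finset.card_univ]
    rw [← Nat.cast_smul_eq_nsmul ℂ, smul_smul, inv_mul_cancel₀ h0, one_smul])
  intro m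
  refine ⟨?_, fun y hy hd => ?_⟩
  · rintro x hx hd ⟨y, hy, e⟩
    obtain ⟨z, hz, ez⟩ := DB.inj_r (hF.db (G.un.ι X)) r hl hx hd hy.1 e
    exact ⟨z, hz, ez.trans (by rw [h1]; exact fn_one F X x)⟩
  · have he : ∀ b x, avg (cv.act G.dk (j.push F)) X (F.fn _ b ((F.tr (G.un.ι X)).f x)) =
        (F.tr (G.un.ι X)).f (F.fn X (r b) x) := fun b x => by
      obtain ⟨b, rfl⟩ := (G.bij _).2 b
      refine (avg_apply (cv.act G.dk (j.push F)) X _).trans (Eq.trans ?_ (tr_fn F _ _ x).symm)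
      rw [G.un.f_i, hr, map_smul, map_sum, fn_smul, fn_sum]
      refine congrArg _ (Finset.sum_congr rfl fun k _ => ?_)
      exact (tr_fn (j.push F) ((G.dk k).τ X) b _).trans
        (congrArg (F.fn _ (j.i _ (S.f ((G.dk k).τ X) b))) (G.un_inv F X x k))
    obtain ⟨x, hx, hdx, z, hz, ez⟩ := DB.surj_r (hF.db (G.un.ι X)) r hl
      (avgH (cv.act G.dk (j.push F)) X) he hy.1 hd
    exact ⟨x, hx, hdx, _, (cutP (G.isAct (j.push F)) X).deg _ _ hz,
      ez.trans (congrArg (· - _) (avg_inv (cv.act G.dk (j.push F)) hy.2))⟩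

theorem ev_lf (Z : S.C) (v : (S.A Z).Der) (b : S.R (cv.ob (j.ob Z))) :
    v (S.f (G.ev Z) b) = S.f (G.ev Z) (cv.lf _ (j.lf Z v) b) := by
  have h := ((j.unr Z).comp (cv.unr _)).rel (S.f (G.ev Z)) v (fun _ : Fin 1 => 1)
    (fun _ => cv.lf _ (j.lf Z v)) (fun a => by simp [G.ev_i, cv.lf_i, j.lf_i]) b
  simpa using h

/-- The counit. -/
def coH (F : GTD S) : GHom (j.push (cut (cv.act G.dk F))) F where
  f Z := ((F.tr (G.ev Z)).comp (avgH (cv.act G.dk F) (j.ob Z))).comp (cutI _ _)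
  fn Z a x := (congrArg (F.tr (G.ev Z)).f (avg_comm (cv.act G.dk F) (cv.act G.dk F) _
    (fun k => (cv.act G.dk F k).fn _ (j.i Z a)) x)).trans
      ((tr_fn F (G.ev Z) _ _).trans (by rw [G.ev_i]; rfl))
  vf Z v (x : (F.F (cv.ob (j.ob Z))).V) := by
    have h1 := avg_comm (cv.act G.dk F) (cv.act G.dk F) _
      (fun k => (cv.act G.dk F k).vf _ (j.lf Z v)) x
    have h2 := avg_comm (cv.act G.dk F) (cv.act G.dk F) _
      (fun k => (cv.act G.dk F k).fn _ (j.b Z v)) x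
    refine (congrArg (F.tr (G.ev Z)).f (((avg (cv.act G.dk F) _).map_add _ _).trans
      (congrArg₂ (· + ·) h1 h2))).trans ?_
    generalize hy : avg (cv.act G.dk F) (j.ob Z) x = y
    refine Eq.trans ?_ (congrArg (fun w => F.vf Z v ((F.tr (G.ev Z)).f w)) hy.symm)
    revert y
    intro (y : (F.F (cv.ob (j.ob Z))).V) _
    change (F.tr (G.ev Z)).f (cv.pvf F _ (j.lf Z v) y + F.fn _ (cv.i _ (j.b Z v)) y) = _
    rw [EtF.pvf_apply, add_assoc, ← fn_add, map_add, tr_fn,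
      vf_gauge F _ (G.ev_unit Z) v _ (G.ev_lf Z v) _ (G.ev_b Z v), add_assoc, ← fn_add,
      neg_add_cancel, fn_zero, add_zero]
  tr {Z Z'} ψ x := by
    obtain ⟨k, hk⟩ := G.ev_nat ψ
    refine (congrArg (F.tr (G.ev Z')).f (avg_comm (cv.act G.dk F) (cv.act G.dk F) _
      (fun k => (cv.act G.dk F k).tr (j.map ψ)) x)).trans ((hk.sq F _).trans ?_)
    exact (F.comp _ _ _ _ _ _).trans (congrArg (fun w => (F.tr ψ).f ((F.tr (G.ev Z)).f w))
      (avg_mem (G.isAct F) _ x k))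

/-- The counit. -/
def coN : GNat ((cv.cutD G.dk).comp j.pushD) (DGF.id (gtc S)) :=
  ⟨fun F => G.coH F, fun {F F'} z Z x => (congrArg (GTD.tr F' (G.ev Z)).f
    (avg_comm (cv.act G.dk F) (cv.act G.dk F') (GTD.Coch.f z _)
      (fun k x => (GTD.Coch.tr z ((G.dk k).τ _) x).symm) x)).trans
        (GTD.Coch.tr z (G.ev Z) _).symm⟩

theorem co_qis' (F : GTD S) (hF : GC F) (Z : S.C) (h : ∀ k, Sim ((G.dk k).τ (j.ob Z)) (𝟙 _))
    (h' : Function.Bijective (S.f (G.ev Z))) : GD.Qis ((G.coH F).f Z) := by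
  have q := hF.qis_tr (G.ev Z) h'
  have hi : ∀ x, x ∈ invs (cv.act G.dk F) (j.ob Z) := fun x k => (h k F x).trans (F.id _ x)
  have he : ∀ x, ((G.coH F).f Z).f x = (F.tr (G.ev Z)).f x := fun x =>
    congrArg (F.tr (G.ev Z)).f (avg_inv (cv.act G.dk F) (hi x))
  intro m
  refine ⟨?_, fun y hy hd => ?_⟩
  · rintro x hx hd ⟨y, hy, e⟩
    obtain ⟨z, hz, ez⟩ := (q m).1 x hx.1 hd ⟨y, hy, e.trans (he x)⟩
    exact ⟨z, ⟨hz, hi z⟩, ez⟩
  · obtain ⟨x, hx, hdx, z, hz, ez⟩ := (q m).2 y hy hd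
    exact ⟨x, ⟨hx, hi x⟩, hdx, z, hz, ez.trans (congrArg (y - ·) (he x).symm)⟩

theorem co_qis (F : GTD S) (hF : GC F) (Z : S.C) : GD.Qis ((G.coH F).f Z) := by
  rcases G.idem Z with ⟨ε, h1, h2, h3, h4⟩ | ⟨h, h'⟩
  swap
  · exact G.co_qis' F hF Z h h'
  let r : S.R Z →+ S.R (cv.ob (j.ob Z)) := AddMonoidHom.mk' (fun a => ε * cv.i _ (j.i Z a))
    fun a b => by rw [map_add, map_add, mul_add]
  have hl : ∀ a b, r ((S.f (G.ev Z)).r a * b) = a * r b := fun a b => by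
    change ε * cv.i _ (j.i Z (S.f (G.ev Z) a * b)) = a * (ε * cv.i _ (j.i Z b))
    rw [map_mul, map_mul, ← mul_assoc, ← h3, ← mul_assoc, mul_comm a]
  have hs : ∀ k (x : (F.F (cv.ob (j.ob Z))).V), ((cv.act G.dk F k).f (j.ob Z)).f (F.fn _ ε x) =
      F.fn _ (S.f ((G.dk k).τ _) ε) ((F.tr ((G.dk k).τ _)).f x) := fun k x => tr_fn F _ ε x
  intro m
  refine ⟨?_, fun y hy hd => ?_⟩
  · rintro x hx hd ⟨y, hy, e⟩
    obtain ⟨z, hz, ez⟩ := DB.inj_r (hF.db (G.ev Z)) r hl hx.1 hd hy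
      (e.trans (congrArg (F.tr (G.ev Z)).f (avg_inv (cv.act G.dk F) hx.2)))
    have ez' : (F.F _).d z = F.fn _ ε x := ez.trans (by
      change F.fn _ (ε * cv.i _ (j.i Z 1)) x = _
      rw [map_one, map_one, mul_one])
    refine ⟨∑ k, ((cv.act G.dk F k).f (j.ob Z)).f z, ⟨Submodule.sum_mem _ fun k _ =>
      ((cv.act G.dk F k).f _).deg _ _ hz, sum_mem_invs (G.isAct F) _ z⟩, ?_⟩
    refine (map_sum (F.F (cv.ob (j.ob Z))).d _ _).trans ?_
    refine (Finset.sum_congr rfl fun k _ => (((cv.act G.dk F k).f _).comm z).symm.trans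
      ((congrArg _ ez').trans ((hs k x).trans (congrArg _ (hx.2 k))))).trans ?_
    exact (fn_sum F _ _ _ x).symm.trans ((congrArg (F.fn _ · x) h1).trans (fn_one F _ x))
  · have he : ∀ b x, F.fn Z b ((F.tr (G.ev Z)).f x) = (F.tr (G.ev Z)).f (F.fn _ (r b) x) :=
      fun b x => by
        refine Eq.trans ?_ (tr_fn F _ _ x).symm
        change F.fn Z b _ = F.fn Z (S.f (G.ev Z) (ε * cv.i _ (j.i Z b))) _
        rw [map_mul, h4, one_mul, G.ev_i]
    obtain ⟨x, hx, hdx, z, hz, ez⟩ := DB.surj_r (hF.db (G.ev Z)) r hl (GD.Hom.id _) he hy hd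
    have hm := sum_mem_invs (G.isAct F) (j.ob Z) (F.fn _ ε x)
    refine ⟨_, ⟨Submodule.sum_mem _ fun k _ => ((cv.act G.dk F k).f _).deg _ _
      (F.fn_gr _ ε m x hx), hm⟩, ?_, z, hz, ez.trans (congrArg (y - ·) ?_)⟩
    · refine (map_sum (F.F (cv.ob (j.ob Z))).d _ _).trans (Finset.sum_eq_zero fun k _ => ?_)
      refine (((cv.act G.dk F k).f _).comm _).symm.trans ((congrArg _ ?_).trans (map_zero _))
      exact (F.fn_d _ ε x).trans ((congrArg _ hdx).trans (map_zero _))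
    · refine Eq.trans ?_ (congrArg (F.tr (G.ev Z)).f (avg_inv (cv.act G.dk F) hm)).symm
      refine Eq.trans ?_ (map_sum (F.tr (G.ev Z)).f _ _).symm
      refine Eq.trans ?_ (Finset.sum_eq_single 1 (fun k _ hk => ?_)
        (fun h => absurd (Finset.mem_univ _) h)).symm
      · refine Eq.trans ?_ (congrArg (F.tr (G.ev Z)).f ((G.one _ F _).trans (F.id _ _))).symm
        rw [tr_fn, h4, fn_one]
      · refine (congrArg (F.tr (G.ev Z)).f (hs k x)).trans ((tr_fn F _ _ _).trans ?_)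
        have h5 := congrArg (S.f (G.ev Z)) (h2 k hk)
        rw [map_mul, h4, mul_one, map_zero] at h5
        rw [h5, fn_zero]

theorem gp_j (G : Gal2 j cv K) : ∀ F, GP T F → GP S (j.pushD.obj F) := j.push_gc (j.isPO_of_bij G.bij)

theorem exists_r' (X : T.C) : ∃ r : S.R (cv.ob X) →+ T.R X, ∀ b, cv.i X (r b) =
    (Fintype.card K : ℂ)⁻¹ • ∑ k, S.f ((G.dk k).τ X) b := by
  obtain ⟨r, hr⟩ := G.exists_r X
  exact ⟨r.comp (j.i (cv.ob X)).toRingHom.toAddMonoidHom, hr⟩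

theorem gp_cv' (F : GTD S) (hF : GC F) : GC (cut (cv.act G.dk F)) := by
  have h := G.isAct F
  refine (gc_iff _).2 fun X Y φ => ?_
  rcases G.po X Y φ with hp | ⟨hb, hs⟩
  · exact DB.retract' (M := ag (cut (cv.act G.dk F)) X) (N := ag (cut (cv.act G.dk F)) Y)
      (M' := ag (cv.push F) X) (N' := ag (cv.push F) Y) ((hF.db (cv.map φ)).push hp)
      (sl_tr (cut (cv.act G.dk F)) φ) (u := cutI _ X) (v := cutI _ Y) (fun _ _ => rfl)
      (fun _ _ => rfl) (r := cutP h X) (s := cutP h Y)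
      (fun a x => avg_comm _ _ _ (fun k => (cv.act G.dk F k).fn X a) x)
      (fun a x => avg_comm _ _ _ (fun k => (cv.act G.dk F k).fn Y a) x) (fun _ => rfl)
      (fun x => avg_comm _ _ _ (fun k => (cv.act G.dk F k).tr φ) x) (fun m x hx => avg_inv _ hx.2)
      fun m x hx => avg_inv _ hx.2
  · have hi : ∀ x, x ∈ invs (cv.act G.dk F) X := fun x k => (hs k F x).trans (F.id _ x)
    have q : GD.Qis (cutI (cv.act G.dk F) X) := fun m =>
      ⟨fun x hx hd ⟨y, hy, e⟩ => ⟨y, ⟨hy, hi y⟩, e⟩, fun y hy hd => ⟨y, ⟨hy, hi y⟩, hd, 0,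
        zero_mem _, (map_zero _).trans (sub_self y).symm⟩⟩
    have d1 : DB (cv.i X : T.R X →+* S.R (cv.ob X)) (ag (cut (cv.act G.dk F)) X) (ag F (cv.ob X))
        (cutI (cv.act G.dk F) X) := (db_bij hb fun _ _ => rfl).2 q
    obtain ⟨r, hr⟩ := G.exists_r' Y
    have h0 : (Fintype.card K : ℂ) ≠ 0 := Nat.cast_ne_zero.2 Fintype.card_ne_zero
    have hl : ∀ a b, r (cv.i Y a * b) = a * r b := fun a b => G.inj Y (by
      rw [hr, map_mul, hr]
      simp only [map_mul, (G.dk _).f_i, Finset.mul_sum, Finset.smul_sum, mul_smul_comm])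
    have h1 : r 1 = 1 := G.inj Y (by
      rw [hr]
      simp only [map_one, Finset.sum_const, Finset.card_univ]
      rw [← Nat.cast_smul_eq_nsmul ℂ, smul_smul, inv_mul_cancel₀ h0, one_smul])
    refine DB.desc (g := (cv.i Y : T.R Y →+* S.R (cv.ob Y))) (N' := ag F (cv.ob Y))
      (((hF.db (cv.map φ)).comp d1).congr (fun a => cv.nat φ a) fun _ => rfl)
      (sl_tr (cut (cv.act G.dk F)) φ) (cutI _ Y) (fun _ _ => rfl) (fun _ => rfl) r hl h1
      (cutP h Y) (fun b x => ?_) fun m x hx => avg_inv _ hx.2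
    refine (avg_apply (cv.act G.dk F) Y _).trans ?_
    change _ = F.fn _ (cv.i Y (r b)) ((F.tr (cv.map φ)).f x)
    rw [hr, fn_smul, fn_sum]
    refine congrArg _ (Finset.sum_congr rfl fun k _ => ?_)
    exact (tr_fn F ((G.dk k).τ Y) b _).trans (congrArg (F.fn _ (S.f ((G.dk k).τ Y) b))
      (((cv.act G.dk F k).tr φ x).trans (congrArg (F.tr (cv.map φ)).f (hi x k))))

theorem gp_cv : ∀ F, GP S F → GP T ((cv.cutD G.dk).obj F) := G.gp_cv'

/-- **Galois descent.** -/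
theorem eqv (G : Gal2 j cv K) : EQV (WD.st T) (WD.st S) :=
  eqv_zig j.pushD (cv.cutD G.dk) G.gp_j G.gp_cv j.push_qis G.pres
    (zig_gc _ _ G.gp_j G.gp_cv G.unN G.un_qis) (zig_gc' _ _ G.gp_cv G.gp_j G.coN G.co_qis)

end Gal2

end

end Vale.Agent.P286EJG
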