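import Vale.Agent.P286EJG.Job
import Vale.Agent.P286EJG.Gal2
import Vale.Agent.P286EH.Gauge

/-!
# The charts for `SO_3`
-/

set_option linter.all false

namespace Vale.Agent.P286EJG

open CategoryTheory Matrix Polynomial Vale.Agent.P286 Vale.Agent.P286E Vale.Agent.P286EP
  Vale.Agent.P286EH
open Vale.Agent.P286ET (Ix)
open Vale.Agent.P286EB hiding PO

noncomputable section

variable {E : Ell} {e : Rt E}

/-- The points of the charts. -/
abbrev PP (e : Rt E) : Type 1 := P286EB.PO e SO3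

/-- The projector. -/
def pp (X : PP e) : Matrix (Fin 3) (Fin 3) X.A.R := X.π

/-- The matrix. -/
def ph {X Y : PP e} (w : PM X Y) : Matrix (Fin 3) (Fin 3) Y.A.R := w.h

theorem p_r1 (X : PP e) (h : X.i ≠ .b) : R1 (pp X) := prj_r1 (X.pt.pr h)

theorem p_hY {X Y : PP e} (w : PM X Y) : ph w *ᵥ (w.φ ∘ X.ξ) = kc e X.i Y.i Y.x • Y.ξ :=
  (hy_iff (h := ph w) w.pt _ _ _).1 w.hY

theorem p_hπ {X Y : PP e} (w : PM X Y) (h : X.i ≠ .b) : ph w * (pp X).map w.φ = pp Y * ph w :=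
  w.hπ h

/-- The cover of a point. -/
structure Cv (X : PP e) : Type 1 where
  B : SmAlg
  i : X.A.Hm B
  n : Fin 3 → B.R
  y : (ES e).C2 X.i →ₐ[ℂ] B.R
  y_x : y (of2 _ _ (pf e X.i Polynomial.X)) = i X.x
  y_t : y (t2 _ _) • n = i ∘ X.ξ
  sq : n ⬝ᵥ n = y ((ES e).f2 X.i)
  et : i.r.FormallyEtale
  inj : Function.Injective i
  bij : X.i = .b → Function.Bijective i
  uv : X.i ≠ .b → UV i.r (pp X) n
  flat : i.r.Flat
  inv : X.i ≠ .b → ∀ σ : B.Hm B, (∀ a, σ (i a) = i a) → σ ∘ n = -n → ∀ b, σ b = b → ∃ a, i a = b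

theorem exists_cv (X : PP e) : Nonempty (Cv X) := by
  obtain ⟨y, hy⟩ := x_lift e X.i X.x (fun h => (X.pt.ub h).1) X.pt.un
  have hf : X.ξ ⬝ᵥ X.ξ = y ((ES e).f X.i) := by rw [x_f, hy]; exact X.pt.sq
  by_cases h : X.i = .b
  · obtain ⟨i, A, x, ξ, π, p⟩ := X
    obtain rfl : i = .b := h
    exact ⟨⟨A, AlgHom.id ℂ _, ξ, y, hy, (congrArg (· • ξ) (map_one y)).trans (one_smul _ _), hf,
      fe_of_bij Function.bijective_id, Function.injective_id, fun _ => Function.bijective_id,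
      fun h => absurd rfl h, RingHom.Flat.id _, fun h => absurd rfl h⟩⟩
  · have H := p_r1 X h
    have H' := H.map (cI H).r
    have k : y3 (cI H ∘ X.ξ) * (pp X).map (cI H).r = 0 := by
      have := congrArg (fun m => m.map (cI H)) (X.pt.pr h).ker
      simp only [map_mul', Grp.ht_map] at this
      exact this.trans (Matrix.map_zero _ (map_zero _))
    have k1 := ker_ax H' (c_ax H) k
    obtain ⟨z, z1, z2⟩ := c2_lift h (AlgHom.comp (cI H) y) ((cI H ∘ X.ξ) ⬝ᵥ cN H) (by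
      have h1 : cI H (X.ξ ⬝ᵥ X.ξ) = (cI H ∘ X.ξ) ⬝ᵥ (cI H ∘ X.ξ) := map_dot (cI H).r _ _
      rw [AlgHom.comp_apply, ← hf, h1]
      generalize (cI H ∘ X.ξ) ⬝ᵥ cN H = s at k1
      rw [← k1, smul_dotProduct, dotProduct_smul, (c_ax H).dot H', smul_eq_mul, smul_eq_mul,
        mul_one, sq])
    exact ⟨⟨cA H, cI H, cN H, z, (z1 _).trans (congrArg (cI H) hy), z2 ▸ k1, by
      rw [f2_ne _ h, map_one]; exact (c_ax H).dot H', c_et H, c_inj H, fun h' => absurd h' h,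
      fun _ => c_uv H, c_flat H, fun _ => c_inv H⟩⟩

/-- The cover of a point. -/
def cvd (X : PP e) : Cv X := Classical.choice (exists_cv X)

namespace Cv

variable {X : PP e} (F : Cv X)

theorem n_b (h : X.i = .b) : F.n = F.i ∘ X.ξ := by rw [← F.y_t, t2_b _ h, map_one, one_smul]

theorem ext {C : Type} [CommRing C] [Algebra ℂ C] {f g : F.B.R →ₐ[ℂ] C}
    (h1 : ∀ a, f (F.i a) = g (F.i a)) (h2 : f ∘ F.n = g ∘ F.n) : f = g := by
  by_cases h : X.i = .b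
  · refine AlgHom.ext fun b => ?_
    obtain ⟨a, rfl⟩ := (F.bij h).2 b
    exact h1 a
  · exact AlgHom.coe_ringHom_injective ((F.uv h).ext C f g h1 h2)

theorem lift {C : Type} [CommRing C] [Algebra ℂ C] (φ : X.A.R →ₐ[ℂ] C) (m : Fin 3 → C)
    (h1 : X.i = .b → m = φ ∘ X.ξ) (h2 : X.i ≠ .b → Ax ((pp X).map φ) m) :
    ∃ ψ : F.B.R →ₐ[ℂ] C, (∀ a, ψ (F.i a) = φ a) ∧ ψ ∘ F.n = m := by
  by_cases h : X.i = .b
  · let g := AlgEquiv.ofBijective F.i (F.bij h)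
    have : ∀ a, φ (g.symm (F.i a)) = φ a := fun a => congrArg φ (g.symm_apply_apply a)
    exact ⟨φ.comp g.symm, this, by rw [h1 h, F.n_b h]; exact funext fun p => this _⟩
  · obtain ⟨ψ, p1, p2⟩ := (F.uv h).lift C φ m (h2 h)
    exact ⟨⟨ψ, fun c => by rw [← F.i.commutes]; exact (p1 _).trans (φ.commutes c)⟩, p1, p2⟩

/-- The point of the double cover. -/
def ob : QO (D2 e) := ⟨X.i, F.B, F.y, F.n, F.sq⟩

theorem un_Y (c : F.B.R) (hc : c = 1) : (1 : Matrix (Fin 3) (Fin 3) F.B.R) * y3 (F.i ∘ X.ξ) =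
    c • (y3 (F.y (t2 _ _) • F.n) * 1) := by
  rw [hc, one_smul, F.y_t, Matrix.one_mul, Matrix.mul_one]

theorem un_π (h : X.i ≠ .b) : (1 : Matrix (Fin 3) (Fin 3) F.B.R) * (pp X).map F.i =
    pi3 X.i F.n * (1 : Matrix (Fin 3) (Fin 3) F.B.R) := by
  rw [pi3_ne h, Matrix.one_mul, Matrix.mul_one]
  exact Matrix.ext fun i j => ((F.uv h).ax i j).symm

theorem un_x : F.i X.x = kx e X.i X.i (F.y (of2 _ _ (pf e X.i Polynomial.X))) := by
  rw [kx_self, F.y_x]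

/-- The unit. -/
def un : PM X (job F.ob) where
  le := le_rfl
  φ := F.i
  h := 1
  pt := Grp.Pt.one SO3
  hx := F.un_x
  hY := F.un_Y _ (kc_self e X.i (qp F.ob))
  hπ := F.un_π

theorem mul_one_map {A B : Type} [CommRing A] [Algebra ℂ A] [CommRing B] [Algebra ℂ B]
    (h : Matrix (Fin 3) (Fin 3) B) (ψ : A →ₐ[ℂ] B) :
    h * (1 : Matrix (Fin 3) (Fin 3) A).map ψ = h := by
  rw [Matrix.map_one _ (map_zero ψ) (map_one ψ), Matrix.mul_one]

theorem exists_L {Z : QO (D2 e)} (w : PM X (job Z)) (ε : ℤˣ) : ∃ u : QM SO3 F.ob Z,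
    u.α = ar ε X.i (qi Z) w.le ∧ F.un.comp (jmap u) = w := by
  let α := ar ε X.i (qi Z) w.le
  let φ : X.A.R →ₐ[ℂ] Z.A.R := w.φ
  let h : Matrix (Fin 3) (Fin 3) Z.A.R := w.h
  have hp : SO3.Pt h := w.pt
  have hn : X.i ≠ .b → qi Z ≠ .b := ne_b w.le
  have ho : hᵀ * h = 1 := pt_orth hp
  have ho' : h * hᵀ = 1 := mul_eq_one_comm.1 ho
  have hY : h *ᵥ (φ ∘ X.ξ) = kc e X.i (qi Z) (qp Z) • qx Z (t2 _ _) • Z.Y := p_hY w
  have hc := q_ct Z α
  obtain ⟨ψ, p1, p2⟩ := F.lift φ (qx Z ((ES e).c2 α) • (hᵀ *ᵥ Z.Y)) (fun hb => by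
      rw [t2_b _ hb, map_one, map_one, one_mul] at hc
      rw [hc, ← mulVec_smul, ← smul_smul, ← hY, mulVec_mulVec, ho, one_mulVec])
    fun hb => by
      have h1 : h * (pp X).map φ = pi3 (qi Z) Z.Y * h := p_hπ w hb
      rw [pi3_ne (hn hb)] at h1
      exact ((ax_vv Z.Y).conj (by rw [transpose_transpose, ho']) (conj_symm ho h1)).smul
        (c2_sq α hb _)
  have p3 : h *ᵥ (ψ ∘ F.n) = qx Z ((ES e).c2 α) • Z.Y := by
    rw [p2, mulVec_smul, mulVec_mulVec, ho', one_mulVec]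
  have p4 : ψ.comp F.y = (qx Z).comp ((ES e).κ2 α) := by
    refine c2_ext X.i (AlgHom.congr_fun (x_ext e X.i (x := (ψ.comp F.y).comp (of2 _ _))
      (y := ((qx Z).comp ((ES e).κ2 α)).comp (of2 _ _)) ?_)) ?_
    · exact (congrArg ψ F.y_x).trans ((p1 _).trans (w.hx.trans (q_kx Z α).symm))
    · change ψ (F.y (t2 _ _)) = qx Z ((ES e).κ2 α (t2 _ _))
      by_cases hb : X.i = .b
      · rw [t2_b _ hb, map_one, map_one, map_one, map_one]
      · have h1 : φ ∘ X.ξ = ψ ∘ (F.y (t2 _ _) • F.n) := by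
          rw [F.y_t]; exact funext fun p => (p1 _).symm
        rw [h1, comp_smul, mulVec_smul, p3, smul_smul, smul_smul, ← hc] at hY
        have h2 := congrArg (· ⬝ᵥ Z.Y) hY
        simp only [smul_dotProduct, q_one Z (hn hb), smul_eq_mul, mul_one] at h2
        linear_combination qx Z ((ES e).c2 α) * h2 -
          (ψ (F.y (t2 _ _)) - qx Z ((ES e).κ2 α (t2 _ _))) * c2_sq α hb (qx Z)
  have p5 := (hy_iff hp _ _ _).2 p3
  exact ⟨⟨α, ψ, h, hp, AlgHom.congr_fun p4, p5⟩, rfl, PM.ext (AlgHom.ext p1) (mul_one_map h ψ)⟩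

/-- The arrow from the cover. -/
def L {Z : QO (D2 e)} (w : PM X (job Z)) (ε : ℤˣ) : QM SO3 F.ob Z := (F.exists_L w ε).choose

theorem L_α {Z : QO (D2 e)} (w : PM X (job Z)) (ε : ℤˣ) :
    (F.L w ε).α = ar ε X.i (qi Z) w.le := (F.exists_L w ε).choose_spec.1

theorem un_L {Z : QO (D2 e)} (w : PM X (job Z)) (ε : ℤˣ) : F.un.comp (jmap (F.L w ε)) = w :=
  (F.exists_L w ε).choose_spec.2

theorem L_i {Z : QO (D2 e)} (w : PM X (job Z)) (ε : ℤˣ) (a : X.A.R) :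
    (F.L w ε).φ (F.i a) = w.φ a := AlgHom.congr_fun (congrArg PM.φ (F.un_L w ε)) a

theorem un_h {Z : QO (D2 e)} (u : QM SO3 F.ob Z) : ph (F.un.comp (jmap u)) = qh u :=
  mul_one_map (A := F.ob.A.R) (qh u) u.φ

theorem L_h {Z : QO (D2 e)} (w : PM X (job Z)) (ε : ℤˣ) : qh (F.L w ε) = ph w :=
  (F.un_h _).symm.trans (congrArg ph (F.un_L w ε))

theorem L_n {Z : QO (D2 e)} (w : PM X (job Z)) (ε : ℤˣ) (h : X.i ≠ .b) :
    qh (F.L w ε) *ᵥ ((F.L w ε).φ ∘ F.n) = ((ε : ℤ) : Z.A.R) • Z.Y := by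
  refine (q_hY (F.L w ε)).trans ?_
  rw [show qa (F.L w ε) = ar ε X.i (qi Z) w.le from F.L_α w ε]
  exact congrArg (· • Z.Y) ((congrArg (qx Z) (c2_ar _ ε w.le h)).trans (map_intCast _ _))

theorem hom_ext {Z : QO (D2 e)} {u v : QM SO3 F.ob Z} (hα : u.α = v.α)
    (h : F.un.comp (jmap u) = F.un.comp (jmap v)) : u = v := by
  have h1 : qh u = qh v := (F.un_h u).symm.trans ((congrArg ph h).trans (F.un_h v))
  refine QM.ext hα (F.ext (AlgHom.congr_fun (congrArg PM.φ h)) ?_) h1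
  have h2 := q_hY u
  rw [show qa u = qa v from hα, ← q_hY v, h1] at h2
  have h3 := congrArg ((qh v)ᵀ *ᵥ ·) h2
  simp only [mulVec_mulVec, pt_orth (h := qh v) v.pt, one_mulVec] at h3
  exact h3

end Cv

theorem pm_assoc {X Y Z W : PP e} (u : PM X Y) (v : PM Y Z) (w : PM Z W) :
    (u.comp v).comp w = u.comp (v.comp w) := (pcat e SO3).assoc u v w

theorem pm_one {X Y : PP e} (u : PM X Y) : (PM.one X).comp u = u := (pcat e SO3).id_comp u

theorem pm_one' {X Y : PP e} (u : PM X Y) : u.comp (PM.one Y) = u := (pcat e SO3).comp_id u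

theorem jmap_comp {P Q R : QO (D2 e)} (u : QM SO3 P Q) (v : QM SO3 Q R) :
    jmap (u.comp v) = (jmap u).comp (jmap v) := rfl

theorem jmap_one (P : QO (D2 e)) : jmap (QM.one SO3 P) = PM.one _ := rfl

/-- The cover on morphisms. -/
def cmap {X Y : PP e} (φ : PM X Y) : QM SO3 (cvd X).ob (cvd Y).ob :=
  (cvd X).L (φ.comp (cvd Y).un) 1

/-- The deck transformations. -/
def dek (k : ℤˣ) (X : PP e) : QM SO3 (cvd X).ob (cvd X).ob := (cvd X).L (cvd X).un k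

/-- The counit. -/
def evl (Z : QO (D2 e)) : QM SO3 (cvd (job Z)).ob Z := (cvd (job Z)).L (PM.one _) 1

theorem un_cmap {X Y : PP e} (φ : PM X Y) :
    (cvd X).un.comp (jmap (cmap φ)) = φ.comp (cvd Y).un := Cv.un_L _ _ _

theorem un_dek (k : ℤˣ) (X : PP e) : (cvd X).un.comp (jmap (dek k X)) = (cvd X).un := Cv.un_L _ _ _

theorem un_evl (Z : QO (D2 e)) : (cvd (job Z)).un.comp (jmap (evl Z)) = PM.one _ := Cv.un_L _ _ _

theorem al_comp {P Q R : QO (D2 e)} (u : QM SO3 P Q) (v : QM SO3 Q R) {ε η : ℤˣ}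
    {h : qi P ≤ qi Q} {h' : qi Q ≤ qi R} (hu : u.α = ar ε _ _ h) (hv : v.α = ar η _ _ h') :
    (u.comp v).α = ar (ε * η) _ _ (h.trans h') :=
  (congrArg₂ Ar.comp hu hv).trans (ar_comp ε η h h')

theorem ar_congr {ε η : ℤˣ} (h : ε = η) {i j : Ix} {p q : i ≤ j} : ar ε i j p = ar η i j q := by
  rw [h]

theorem cmap_α {X Y : PP e} (φ : PM X Y) : (cmap φ).α = ar 1 _ _ φ.le := Cv.L_α _ _ _

theorem dek_α (k : ℤˣ) (X : PP e) : (dek k X).α = ar k _ _ le_rfl := Cv.L_α _ _ _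

theorem evl_α (Z : QO (D2 e)) : (evl Z).α = ar 1 _ _ le_rfl := Cv.L_α _ _ _

theorem cmap_one (X : PP e) : cmap (PM.one X) = QM.one SO3 _ :=
  (cvd X).hom_ext ((Cv.L_α _ _ _).trans (ar_one _ _)) (by rw [un_cmap, jmap_one, pm_one, pm_one'])

theorem cmap_comp {X Y Z : PP e} (φ : PM X Y) (ψ : PM Y Z) :
    cmap (φ.comp ψ) = (cmap φ).comp (cmap ψ) :=
  (cvd X).hom_ext ((cmap_α _).trans (al_comp _ _ (cmap_α φ) (cmap_α ψ)).symm) (by
    rw [un_cmap, jmap_comp, ← pm_assoc, un_cmap, pm_assoc, pm_assoc, un_cmap])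

theorem cmap_dek (k : ℤˣ) {X Y : PP e} (φ : PM X Y) :
    (cmap φ).comp (dek k Y) = (dek k X).comp (cmap φ) :=
  (cvd X).hom_ext ((al_comp _ _ (cmap_α φ) (dek_α k Y)).trans (Eq.trans
    (ar_congr (mul_comm _ _)) (al_comp _ _ (dek_α k X) (cmap_α φ)).symm)) (by
    rw [jmap_comp, jmap_comp, ← pm_assoc, ← pm_assoc, un_cmap, un_dek, un_cmap, pm_assoc, un_dek])

theorem dek_one (X : PP e) : dek 1 X = QM.one SO3 _ :=
  (cvd X).hom_ext ((Cv.L_α _ _ _).trans (ar_one _ _)) (by rw [un_dek, jmap_one, pm_one'])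

theorem dek_b (k : ℤˣ) {X : PP e} (h : X.i = .b) : dek k X = QM.one SO3 _ :=
  (cvd X).hom_ext ((Cv.L_α _ _ _).trans (ar_b k h _)) (by rw [un_dek, jmap_one, pm_one'])

theorem dek_mul (k l : ℤˣ) (X : PP e) : (dek k X).comp (dek l X) = dek (l * k) X :=
  (cvd X).hom_ext ((al_comp _ _ (dek_α k X) (dek_α l X)).trans (Eq.trans
    (ar_congr (mul_comm _ _)) (dek_α _ X).symm)) (by
    rw [jmap_comp, ← pm_assoc, un_dek, un_dek, un_dek])

theorem evl_nat {Z Z' : QO (D2 e)} (ψ : QM SO3 Z Z') :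
    ∃ k, (cmap (jmap ψ)).comp (evl Z') = (dek k (job Z)).comp ((evl Z).comp ψ) := by
  obtain ⟨ε, hε⟩ := exists_ar (qa ψ)
  refine ⟨ε, (cvd _).hom_ext ((al_comp _ _ (cmap_α (jmap ψ)) (evl_α Z')).trans (Eq.trans
    (ar_congr (ε := 1 * 1) (η := ε * (1 * ε)) (by rw [one_mul, one_mul, Int.units_mul_self])) (al_comp _ _ (dek_α ε (job Z))
      (al_comp _ _ (evl_α Z) hε)).symm)) ?_⟩
  rw [jmap_comp, jmap_comp, jmap_comp, ← pm_assoc, ← pm_assoc, ← pm_assoc, un_cmap, un_dek, un_evl,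
    pm_assoc, un_evl, pm_one, pm_one']

theorem dek_n {X : PP e} (h : X.i ≠ .b) : (dek (-1) X).φ ∘ (cvd X).n = -(cvd X).n := by
  have h1 := (cvd X).L_n (cvd X).un (-1) h
  rw [Cv.L_h] at h1
  refine ((one_mulVec _).symm.trans h1).trans ?_
  rw [Units.val_neg, Units.val_one, Int.cast_neg, Int.cast_one, neg_one_smul]
  rfl

theorem cmap_n {X Y : PP e} (φ : PM X Y) (h : X.i ≠ .b) :
    (ph φ).map (cvd Y).i *ᵥ ((cmap φ).φ ∘ (cvd X).n) = (cvd Y).n := by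
  have h1 := (cvd X).L_n (φ.comp (cvd Y).un) 1 h
  rw [Cv.L_h, Units.val_one, Int.cast_one, one_smul] at h1
  exact (congrArg (· *ᵥ _) (Matrix.one_mul ((ph φ).map (cvd Y).i)).symm).trans h1

theorem cmap_po {X Y : PP e} (φ : PM X Y) (h : X.i ≠ .b) :
    P286EG.PO φ.φ.r (cvd X).i.r (cvd Y).i.r (cmap φ).φ.r := by
  let ψ : (cvd X).B.Hm (cvd Y).B := (cmap φ).φ
  have h1 : ∀ a, ψ ((cvd X).i a) = (cvd Y).i (φ.φ a) := Cv.L_i _ _ _
  refine P286EG.PO.of_alg (f' := ψ.r) h1 (cvd X).flat ?_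
  letI := φ.φ.r.toAlgebra
  letI := (cvd X).i.r.toAlgebra
  letI := (cvd Y).i.r.toAlgebra
  letI := ψ.r.toAlgebra
  letI := ((cvd Y).i.r.comp φ.φ.r).toAlgebra
  haveI : IsScalarTower X.A.R Y.A.R (cvd Y).B.R := .of_algebraMap_eq fun _ => rfl
  haveI : IsScalarTower X.A.R (cvd X).B.R (cvd Y).B.R := .of_algebraMap_eq fun x => (h1 x).symm
  exact UV.push ((cvd X).uv h) ((cvd Y).uv (ne_b φ.le h)) (pt_orth (h := ph φ) φ.pt) (p_hπ φ h)
    (cmap_n φ h)

theorem dl_self {P Q : QO (D2 e)} (u : QM SO3 P Q) (h : qi P = qi Q) :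
    qx Q ((ES e).r2 (qa u)) = 1 := by
  rw [q_kr, h, kr_self]

theorem cmap_dl {X Y : PP e} (φ : PM X Y) :
    (cvd Y).y ((ES e).r2 (qa (cmap φ))) = (cvd Y).i (kr e X.i Y.i Y.x) := by
  rw [map_kr, ← (cvd Y).y_x]
  exact q_kr (cvd Y).ob (qa (cmap φ))

theorem un_dl (X : PP e) : kr e X.i X.i (qp (cvd X).ob) = 1 := kr_self e _ _

theorem sum_two {X : PP e} {ε : (cvd X).B.R} {σ : (cvd X).B.R →ₐ[ℂ] (cvd X).B.R}
    (h1 : σ = (dek 1 X).φ) {z : (cvd X).B.R} (h : ε + z = 1) : σ ε + z = 1 := by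
  rw [h1, dek_one]; exact h

variable (e) (s : ℂ)

/-- The functor which forgets the unit vector. -/
def jF : EtF (QP e SO3 s) (QS (D2 e) SO3 s) :=
  EtP.mk0 (S := QP e SO3 s) (T := QS (D2 e) SO3 s)
    { ob := job
      map := jmap
      map_id := fun _ => Sim.of_eq rfl
      map_comp := fun _ _ => Sim.of_eq rfl
      cen := fun _ _ h => h.elim
      i := fun _ => AlgHom.id ℂ _
      et := fun _ => fe_of_bij Function.bijective_id
      nat := fun _ _ => rfl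
      unit := fun u => (good_QP e SO3 s).unit _ } rfl fun {P Q} u => (q_kr Q (qa u)).symm

/-- The cover. -/
def cF : EtF (QS (D2 e) SO3 s) (QP e SO3 s) :=
  EtP.mk0 (S := QS (D2 e) SO3 s) (T := QP e SO3 s)
    { ob := fun X => (cvd X).ob
      map := cmap
      map_id := fun X => Sim.of_eq (cmap_one X)
      map_comp := fun φ ψ => Sim.of_eq (cmap_comp φ ψ)
      cen := fun _ _ h => h.elim
      i := fun X => (cvd X).i
      et := fun X => (cvd X).et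
      nat := fun _ => Cv.L_i _ _ _
      unit := fun u => (good_QS _ SO3 s).unit _ } rfl cmap_dl

/-- The Galois descent. -/
def gal : Gal2 (jF e s) (cF e s) ℤˣ where
  un :=
    { ι := fun X => (cvd X).un
      f_i := fun _ _ => rfl
      nat := fun φ => Sim.of_eq (un_cmap φ).symm
      unit := fun X => (good_QP e SO3 s).unit _
      b := fun X v => gauge_one (un_dl X) ((zero_add _).trans (map_zero _)) _ _ }
  dk k :=
    { τ := dek k
      f_i := fun X => Cv.L_i _ _ _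
      nat := fun φ => Sim.of_eq (cmap_dek k φ)
      unit := fun X => (good_QS _ SO3 s).unit _
      b := fun X v => gauge_one (dl_self (dek k X) rfl) ((zero_sub _).trans
        ((congrArg Neg.neg (map_zero _)).trans neg_zero)) _ _ }
  one X := Sim.of_eq (dek_one X)
  mul k l X := Sim.of_eq (dek_mul k l X)
  fmul k l X b := AlgHom.congr_fun (congrArg QM.φ (dek_mul k l X)) b
  un_dk k X := Sim.of_eq (un_dek k X)
  bij _ := Function.bijective_id
  po X Y φ := by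
    by_cases h : P286EB.PO.i X = .b
    · exact .inr ⟨(cvd X).bij h, fun k => Sim.of_eq (dek_b k h)⟩
    · exact .inl (cmap_po φ h)
  inj X := (cvd X).inj
  inv X b hb := by
    by_cases h : P286EB.PO.i X = .b
    · exact ((cvd X).bij h).2 b
    · exact (cvd X).inv h (dek (-1) X).φ (Cv.L_i _ _ _) (dek_n h) b (hb (-1))
  ev := evl
  ev_i Z := (cvd (job Z)).L_i (PM.one _) 1
  ev_unit Z := (good_QS _ SO3 s).unit _
  ev_b Z v := gauge_one (dl_self (evl Z) rfl) (neg_eq_zero.2 ((congrArg (evl Z).φ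
    ((zero_add _).trans (map_zero _))).trans (map_zero _))) _ _
  ev_nat ψ := (evl_nat ψ).imp fun _ => Sim.of_eq
  idem Z := by
    have h0 : ∀ a, (evl Z).φ ((cvd (job Z)).i a) = a := Cv.L_i _ _ _
    by_cases h : (job Z).i = .b
    · refine .inr ⟨fun k => Sim.of_eq (dek_b k h), ?_⟩
      exact (Function.Bijective.of_comp_iff (evl Z).φ ((cvd (job Z)).bij h)).1
        ((funext h0 : (evl Z).φ ∘ (cvd (job Z)).i = id) ▸ Function.bijective_id)
    · obtain ⟨ε, -, e2, e3, e4, e5⟩ := ((cvd (job Z)).uv h).split (p_r1 _ h) (evl Z).φ.r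
        (dek (-1) (job Z)).φ.r h0 (Cv.L_i _ _ _) (dek_n h)
      refine .inl ⟨ε, ?_, fun k hk => ?_, e5, e4⟩
      · rw [UnitsInt.univ, Finset.sum_pair (by decide)]
        exact sum_two rfl e2
      · obtain rfl := (Int.units_eq_one_or k).resolve_left hk
        exact e3

/-- **The charts for `SO_3`.** -/
theorem qp3 : QP3 := fun _ e s => (gal e s).eqv

end

end Vale.Agent.P286EJG
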