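import Vale.Agent.P286EG.Ag3

/-!
# The double cover defined by a projector of rank one
-/

set_option linter.all false

namespace Vale.Agent.P286EJG

open Matrix TensorProduct Vale.Agent.P286 Vale.Agent.P286EG

noncomputable section

variable {A B : Type} [CommRing A] [CommRing B] {N : ℕ}

/-- An orthogonal projector of rank one. -/
structure R1 (π : Matrix (Fin N) (Fin N) A) : Prop where
  two : IsUnit (2 : A)
  symm : ∀ i j, π i j = π j i
  tr : ∑ i, π i i = 1
  rk : ∀ i j k l, π i j * π k l = π i l * π k j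

/-- A unit vector in the image of the projector. -/
def Ax (π : Matrix (Fin N) (Fin N) A) (n : Fin N → A) : Prop := ∀ i j, n i * n j = π i j

variable {π : Matrix (Fin N) (Fin N) A} {n n' : Fin N → A}

theorem R1.map (H : R1 π) (f : A →+* B) : R1 (π.map f) :=
  ⟨by have := H.two.map f; rwa [map_ofNat] at this, fun i j => congrArg f (H.symm i j),
    by simp only [map_apply]; rw [← map_sum, H.tr, map_one],
    fun i j k l => by simp only [map_apply]; rw [← map_mul, ← map_mul, H.rk]⟩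

theorem Ax.map (H : Ax π n) (f : A →+* B) : Ax (π.map f) (f ∘ n) := fun i j => by
  simp only [Function.comp, map_apply]; rw [← map_mul, H]

theorem Ax.dot (H : Ax π n) (h : R1 π) : n ⬝ᵥ n = 1 := by
  rw [← h.tr]; exact Finset.sum_congr rfl fun i _ => H i i

theorem Ax.mulVec (H : Ax π n) (v : Fin N → A) : π *ᵥ v = (n ⬝ᵥ v) • n := by
  funext i
  simp only [Matrix.mulVec, dotProduct, Pi.smul_apply, smul_eq_mul, Finset.sum_mul, ← H i]
  exact Finset.sum_congr rfl fun j _ => by ring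

theorem Ax.smul (H : Ax π n) {s : A} (hs : s * s = 1) : Ax π (s • n) := fun i j => by
  simp only [Pi.smul_apply, smul_eq_mul]
  linear_combination n i * n j * hs + H i j

theorem Ax.neg (H : Ax π n) : Ax π (-n) := fun i j => by
  simp only [Pi.neg_apply, neg_mul_neg, H i j]

/-- Two unit vectors differ by a sign. -/
theorem two_axes (h : R1 π) (H : Ax π n) (H' : Ax π n') :
    (n ⬝ᵥ n') * (n ⬝ᵥ n') = 1 ∧ n' = (n ⬝ᵥ n') • n := by
  have e : n' = (n ⬝ᵥ n') • n := by rw [← H.mulVec, H'.mulVec, H'.dot h, one_smul]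
  refine ⟨?_, e⟩
  have := H'.dot h
  generalize n ⬝ᵥ n' = s at e
  rwa [e, smul_dotProduct, dotProduct_smul, H.dot h, smul_eq_mul, smul_eq_mul, mul_one] at this

theorem map_dot (f : A →+* B) (u v : Fin N → A) : f (u ⬝ᵥ v) = (f ∘ u) ⬝ᵥ (f ∘ v) :=
  RingHom.map_dotProduct f u v

theorem sq_zero {I : Ideal A} (hI : I ^ 2 = ⊥) {x : A} (hx : Ideal.Quotient.mk I x = 1) :
    (x - 1) * (x - 1) = 0 := by
  have h5 : x - 1 ∈ I := by rw [← Ideal.Quotient.eq]; exact hx
  have := Ideal.mul_mem_mul h5 h5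
  rwa [← pow_two, hI] at this

theorem Ax.uniq (h : R1 π) (H : Ax π n) (H' : Ax π n') (I : Ideal A) (hI : I ^ 2 = ⊥)
    (hh : Ideal.Quotient.mk I ∘ n' = Ideal.Quotient.mk I ∘ n) : n' = n := by
  obtain ⟨h1, h2⟩ := two_axes h H H'
  have h3 := sq_zero hI (x := n ⬝ᵥ n') (by rw [map_dot, hh, (H.map _).dot (h.map _)])
  have : 2 * (n ⬝ᵥ n' - 1) = 0 := by linear_combination h1 - h3
  rw [h2, sub_eq_zero.1 (h.two.mul_right_eq_zero.1 this), one_smul]

theorem Ax.lift (h : R1 π) (I : Ideal A) (hI : I ^ 2 = ⊥) {m : Fin N → A ⧸ I}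
    (H : Ax (π.map (Ideal.Quotient.mk I)) m) : ∃ n, Ax π n ∧ Ideal.Quotient.mk I ∘ n = m := by
  set p := Ideal.Quotient.mk I with hp
  choose n0 h0 using fun i => Ideal.Quotient.mk_surjective (I := I) (m i)
  have e0 : p ∘ n0 = m := funext h0
  obtain ⟨t, ht⟩ := h.two.exists_right_inv
  have e1 : p ∘ (π *ᵥ n0) = m := by
    funext i
    rw [Function.comp, RingHom.map_mulVec, e0, H.mulVec, H.dot (h.map _), one_smul]
  have e2 : p (n0 ⬝ᵥ π *ᵥ n0) = 1 := by rw [map_dot, e0, e1, H.dot (h.map _)]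
  have e3 : ∀ i j, (π *ᵥ n0) i * (π *ᵥ n0) j = (n0 ⬝ᵥ π *ᵥ n0) * π i j := fun i j => by
    simp only [Matrix.mulVec, dotProduct, Finset.sum_mul, Finset.mul_sum]
    refine Finset.sum_congr rfl fun k _ => Finset.sum_congr rfl fun l _ => ?_
    linear_combination n0 k * n0 l * h.rk i l k j - π i l * n0 l * n0 k * h.symm k j
  have e4 := sq_zero hI e2
  generalize n0 ⬝ᵥ π *ᵥ n0 = q at e2 e3 e4
  refine ⟨(1 - t * (q - 1)) • (π *ᵥ n0), fun i j => ?_, funext fun i => ?_⟩
  · simp only [Pi.smul_apply, smul_eq_mul]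
    linear_combination (1 - t * (q - 1)) ^ 2 * e3 i j +
      π i j * ((t * t * q - 2 * t) * e4 - (q - 1) * ht)
  · have := congrFun e1 i
    simp only [Function.comp, Pi.smul_apply, smul_eq_mul, map_mul, map_sub, map_one, e2] at this ⊢
    rw [this]; ring

theorem exists_axis {L : Type} [Field L] [IsAlgClosed L] {π : Matrix (Fin N) (Fin N) L}
    (h : R1 π) : ∃ n, Ax π n := by
  obtain ⟨a, -, ha⟩ := Finset.exists_ne_zero_of_sum_ne_zero (h.tr ▸ one_ne_zero)
  obtain ⟨r, hr⟩ := IsAlgClosed.exists_eq_mul_self (π a a)⁻¹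
  have := mul_inv_cancel₀ ha
  rw [hr] at this
  refine ⟨fun i => r * π i a, fun i j => ?_⟩
  linear_combination r * r * h.rk i a a j - r * r * π i a * h.symm a j + π i j * this

/-- The universal unit vector. -/
structure UV (i : A →+* B) (π : Matrix (Fin N) (Fin N) A) (n : Fin N → B) : Prop where
  ax : Ax (π.map i) n
  lift : ∀ (C : Type) [CommRing C] (φ : A →+* C) (m : Fin N → C), Ax (π.map φ) m →
    ∃ ψ : B →+* C, (∀ a, ψ (i a) = φ a) ∧ ψ ∘ n = m
  ext : ∀ (C : Type) [CommRing C] (f g : B →+* C), (∀ a, f (i a) = g (i a)) → f ∘ n = g ∘ n →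
    f = g

section

variable {n : Fin N → B}

theorem UV.ax' {i : A →+* B} (U : UV i π n) {C : Type} [CommRing C] (f : B →+* C) (φ : A →+* C)
    (hf : ∀ a, f (i a) = φ a) : Ax (π.map φ) (f ∘ n) := by
  have := U.ax.map f
  rwa [Matrix.map_map, show f ∘ i = φ from funext hf] at this

theorem UV.cmp {i : A →+* B} (U : UV i π n) {C : Type} [CommRing C] (f g : B →+* C)
    (hfg : ∀ a, f (i a) = g (i a)) {ε : C} (hε : ε * ε = ε)
    (hh : ∀ p, ε * f (n p) = ε * g (n p)) (b : B) : ε * f b = ε * g b := by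
  let q := Ideal.Quotient.mk (Ideal.span {1 - ε})
  have h1 : q ε = 1 := by
    rw [eq_comm, ← map_one q, Ideal.Quotient.eq]
    exact Ideal.mem_span_singleton_self _
  have := U.ext _ (q.comp f) (q.comp g) (fun a => congrArg q (hfg a)) (by
    funext p
    have := congrArg q (hh p)
    rwa [map_mul, map_mul, h1, one_mul, one_mul] at this)
  obtain ⟨c, hc⟩ := Ideal.mem_span_singleton'.1 (Ideal.Quotient.eq.1 (RingHom.congr_fun this b))
  linear_combination -ε * hc - c * hε

theorem UV.etale [Algebra A B] (U : UV (algebraMap A B) π n) (h : R1 π) :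
    Algebra.FormallyEtale A B := by
  refine Algebra.FormallyEtale.iff_comp_bijective.2 fun C _ _ I hI => ⟨fun f g hfg => ?_, fun f => ?_⟩
  · refine AlgHom.coe_ringHom_injective (U.ext C f g (fun a => by simp) ?_)
    refine Ax.uniq (h.map (algebraMap A C)) (U.ax' (g : B →+* C) _ g.commutes)
      (U.ax' (f : B →+* C) _ f.commutes) I hI ?_
    funext p
    exact AlgHom.congr_fun hfg (n p)
  · have H := U.ax' (f : B →+* C ⧸ I) ((Ideal.Quotient.mk I).comp (algebraMap A C)) f.commutes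
    obtain ⟨g, hg, hg'⟩ := Ax.lift (h.map (algebraMap A C)) I hI
      (m := f ∘ n) (by rw [Matrix.map_map]; exact H)
    obtain ⟨ψ, h1, h2⟩ := U.lift C _ g hg
    refine ⟨⟨ψ, h1⟩, AlgHom.coe_ringHom_injective (U.ext _ _ _ (fun a => by simp) ?_)⟩
    rw [← h2] at hg'
    exact hg'

theorem UV.ff [Algebra A B] [Module.Flat A B] (U : UV (algebraMap A B) π n) (h : R1 π) :
    Module.FaithfullyFlat A B := by
  refine Module.FaithfullyFlat.of_comap_surjective fun p => ?_
  let L := AlgebraicClosure p.asIdeal.ResidueField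
  let φ : A →+* L := (algebraMap p.asIdeal.ResidueField L).comp (algebraMap A _)
  obtain ⟨g, hg⟩ := exists_axis (h.map φ)
  obtain ⟨ψ, h1, -⟩ := U.lift L φ g hg
  refine ⟨⟨RingHom.ker ψ, RingHom.ker_isPrime ψ⟩, PrimeSpectrum.ext (Ideal.ext fun a => ?_)⟩
  rw [PrimeSpectrum.comap_asIdeal, Ideal.mem_comap, RingHom.mem_ker, h1]
  simp [φ]

theorem UV.inv [Algebra A B] [Module.FaithfullyFlat A B] (U : UV (algebraMap A B) π n)
    (h : R1 π) (σ : B →+* B) (h1 : ∀ a, σ (algebraMap A B a) = algebraMap A B a)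
    (h2 : σ ∘ n = -n) (b : B) (hb : σ b = b) : ∃ a, algebraMap A B a = b := by
  let f : B →ₐ[A] B ⊗[A] B := Algebra.TensorProduct.includeLeft
  let g : B →ₐ[A] B ⊗[A] B := Algebra.TensorProduct.includeRight
  have hd' := h.map (algebraMap A (B ⊗[A] B))
  obtain ⟨s1, s3⟩ := two_axes hd' (U.ax' (f : B →+* _) _ f.commutes)
    (U.ax' (g : B →+* _) _ g.commutes)
  generalize ((f : B →+* B ⊗[A] B) ∘ n) ⬝ᵥ ((g : B →+* B ⊗[A] B) ∘ n) = s at s1 s3
  obtain ⟨t, ht⟩ := hd'.two.exists_right_inv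
  have e1 : ∀ p, (g : B →+* _) (n p) = s * (f : B →+* _) (n p) := congrFun s3
  have k1 := U.cmp (g : B →+* _) (f : B →+* _) (fun a => by simp) (ε := t * (1 + s))
    (by linear_combination t * t * s1 + t * (1 + s) * ht)
    (fun p => by rw [e1]; linear_combination t * (f : B →+* _) (n p) * s1) b
  have k2 := U.cmp (g : B →+* _) ((f : B →+* _).comp σ) (fun a => by simp [h1]) (ε := t * (1 - s))
    (by linear_combination t * t * s1 + t * (1 - s) * ht)
    (fun p => by
      rw [e1, RingHom.comp_apply, show σ (n p) = -n p from congrFun h2 p, map_neg]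
      linear_combination -(t * (f : B →+* _) (n p)) * s1) b
  rw [RingHom.comp_apply, hb] at k2
  have : (f : B →+* B ⊗[A] B) b = (g : B →+* B ⊗[A] B) b := by
    linear_combination -k1 - k2 + ((g : B →+* B ⊗[A] B) b - (f : B →+* B ⊗[A] B) b) * ht
  exact (Algebra.IsEffective.of_faithfullyFlat A B b).1 (by
    rw [Algebra.TensorProduct.includeLeftSubRight_apply]; exact sub_eq_zero.2 this)

theorem UV.split {i : A →+* B} (U : UV i π n) (h : R1 π) (ev : B →+* A) (σ : B →+* B)
    (h0 : ∀ a, ev (i a) = a) (h1 : ∀ a, σ (i a) = i a) (h2 : σ ∘ n = -n) :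
    ∃ ε : B, ε * ε = ε ∧ ε + σ ε = 1 ∧ σ ε * ε = 0 ∧ ev ε = 1 ∧ ∀ b, ε * b = ε * i (ev b) := by
  have F2 := U.ax' (i.comp ev) i fun a => congrArg i (h0 a)
  obtain ⟨s1, s3⟩ := two_axes (h.map i) F2 U.ax
  obtain ⟨t, ht⟩ := h.two.exists_right_inv
  have ht' : 2 * i t = 1 := by rw [← map_ofNat i 2, ← map_mul, ht, map_one]
  have e1 : σ ((i.comp ev) ∘ n ⬝ᵥ n) = -((i.comp ev) ∘ n ⬝ᵥ n) := by
    rw [map_dot, h2, dotProduct_neg]
    exact congrArg (fun v => -(v ⬝ᵥ n)) (funext fun p => h1 _)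
  have e2 : ev ((i.comp ev) ∘ n ⬝ᵥ n) = 1 := by
    rw [map_dot, ← (U.ax.map ev).dot ((h.map i).map ev)]
    exact congrArg (· ⬝ᵥ _) (funext fun p => h0 _)
  generalize (i.comp ev) ∘ n ⬝ᵥ n = s at s1 s3 e1 e2
  have e3 : σ (i t * (1 + s)) = i t * (1 - s) := by
    rw [map_mul, map_add, map_one, h1, e1, sub_eq_add_neg]
  have e4 : i t * (1 + s) * (i t * (1 + s)) = i t * (1 + s) := by
    linear_combination i t * i t * s1 + i t * (1 + s) * ht'
  refine ⟨i t * (1 + s), e4, ?_, ?_, ?_, fun b => ?_⟩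
  · rw [e3]; linear_combination ht'
  · rw [e3]; linear_combination -(i t * i t) * s1
  · rw [map_mul, map_add, map_one, h0, e2]; linear_combination ht
  · refine U.cmp (RingHom.id B) (i.comp ev) (fun a => congrArg i (h0 a).symm) e4 (fun p => ?_) b
    have e5 : n p = s * (i.comp ev) (n p) := congrFun s3 p
    rw [RingHom.id_apply]
    linear_combination i t * (1 + s) * e5 + i t * (i.comp ev) (n p) * s1

theorem Ax.conj {π π' g : Matrix (Fin N) (Fin N) A} {n : Fin N → A} (H : Ax π n)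
    (g1 : gᵀ * g = 1) (g3 : g * π = π' * g) : Ax π' (g *ᵥ n) := fun i j => by
  have e : π' = g * π * gᵀ := by rw [g3, Matrix.mul_assoc, mul_eq_one_comm.1 g1, Matrix.mul_one]
  simp only [e, mul_apply, Matrix.mulVec, dotProduct, transpose_apply, Finset.sum_mul,
    Finset.mul_sum, ← H _ _]
  exact Finset.sum_congr rfl fun k _ => Finset.sum_congr rfl fun l _ => by ring

theorem conj_symm {π π' g : Matrix (Fin N) (Fin N) A} (g1 : gᵀ * g = 1) (g3 : g * π = π' * g) :
    gᵀ * π' = π * gᵀ := by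
  rw [← Matrix.mul_one (gᵀ * π'), ← mul_eq_one_comm.1 g1, Matrix.mul_assoc, ← Matrix.mul_assoc π',
    ← g3, ← Matrix.mul_assoc, ← Matrix.mul_assoc, g1, Matrix.one_mul]

theorem map_mv (f : A →+* B) (g : Matrix (Fin N) (Fin N) A) (v : Fin N → A) :
    f ∘ (g *ᵥ v) = g.map f *ᵥ (f ∘ v) := funext fun i => RingHom.map_mulVec f g v i

theorem orth_map (f : A →+* B) {g : Matrix (Fin N) (Fin N) A} (g1 : gᵀ * g = 1) :
    (g.map f)ᵀ * g.map f = 1 := by
  rw [← transpose_map, ← Matrix.map_mul, g1, Matrix.map_one f (map_zero f) (map_one f)]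

theorem UV.push {A' B' : Type} [CommRing A'] [CommRing B'] [Algebra A A'] [Algebra A B]
    [Algebra A' B'] [Algebra B B'] [Algebra A B'] [IsScalarTower A A' B'] [IsScalarTower A B B']
    {π' g : Matrix (Fin N) (Fin N) A'} {n' : Fin N → B'} (U : UV (algebraMap A B) π n)
    (U' : UV (algebraMap A' B') π' n') (g1 : gᵀ * g = 1) (g3 : g * π.map (algebraMap A A') = π' * g)
    (hh : g.map (algebraMap A' B') *ᵥ (algebraMap B B' ∘ n) = n') :
    Algebra.IsPushout A A' B B' := by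
  let u : A' ⊗[A] B →ₐ[A'] B' := Algebra.TensorProduct.lift (Algebra.ofId A' B')
    (IsScalarTower.toAlgHom A B B') fun _ _ => .all _ _
  let l : A' →+* A' ⊗[A] B := algebraMap _ _
  let r : B →ₐ[A] A' ⊗[A] B := Algebra.TensorProduct.includeRight
  have ul : ∀ a, u (l a) = algebraMap A' B' a := u.commutes
  have ur : ∀ b, u (r b) = algebraMap B B' b := fun b => by simp [u, r]
  have F := U.ax' (r : B →+* _) (l.comp (algebraMap A A')) fun a => r.commutes a
  have g4 : g.map l * π.map (l.comp (algebraMap A A')) = π'.map l * g.map l := by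
    rw [← Matrix.map_mul, ← g3, Matrix.map_mul, Matrix.map_map, RingHom.coe_comp]
  obtain ⟨v, v1, v2⟩ := U'.lift _ l _ (F.conj (orth_map l g1) g4)
  have uv : (u : A' ⊗[A] B →+* B').comp v = RingHom.id B' := U'.ext _ _ _
    (fun a => by rw [RingHom.comp_apply, v1]; exact ul a) (by
      rw [RingHom.coe_comp, Function.comp_assoc, v2, map_mv, Matrix.map_map, ← Function.comp_assoc,
        show (u : A' ⊗[A] B →+* B') ∘ (r : B →+* _) = algebraMap B B' from funext ur,
        show (u : A' ⊗[A] B →+* B') ∘ l = algebraMap A' B' from funext ul, hh]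
      rfl)
  have vr : v.comp (algebraMap B B') = r := U.ext _ _ _
    (fun a => by
      rw [RingHom.comp_apply, ← IsScalarTower.algebraMap_apply,
        IsScalarTower.algebraMap_apply A A' B', v1]
      exact (r.commutes a).symm) (by
      rw [← hh, map_mv, Matrix.map_map, show v ∘ algebraMap A' B' = l from funext v1] at v2
      have := congrArg ((g.map l)ᵀ *ᵥ ·) v2
      simp only [mulVec_mulVec, orth_map l g1, one_mulVec] at this
      exact this)
  have vu : ∀ x, v (u x) = x := fun x => by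
    induction x with
    | zero => simp
    | add x y hx hy => rw [map_add, map_add, hx, hy]
    | tmul a b =>
      have : a ⊗ₜ[A] b = l a * r b := by simp [l, r]
      rw [this, map_mul, map_mul, ul, ur, v1]
      exact congrArg _ (RingHom.congr_fun vr b)
  exact ⟨IsBaseChange.of_equiv (LinearEquiv.ofBijective u.toLinearMap
    ⟨Function.LeftInverse.injective vu, fun y => ⟨v y, RingHom.congr_fun uv y⟩⟩) ur⟩

end

/-- The double cover. -/
abbrev CV (π : Matrix (Fin N) (Fin N) A) : Type :=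
  MvPolynomial (Fin N) A ⧸ Ideal.span (Set.range fun p : Fin N × Fin N =>
    (MvPolynomial.X p.1 * MvPolynomial.X p.2 - MvPolynomial.C (π p.1 p.2) : MvPolynomial (Fin N) A))

/-- The universal unit vector. -/
def cn (π : Matrix (Fin N) (Fin N) A) : Fin N → CV π := fun p => Ideal.Quotient.mk _ (.X p)

theorem uv (π : Matrix (Fin N) (Fin N) A) : UV (algebraMap A (CV π)) π (cn π) where
  ax i j := Ideal.Quotient.eq.2 (Ideal.subset_span ⟨(i, j), rfl⟩)
  lift C _ φ m H := by
    refine ⟨Ideal.Quotient.lift _ (MvPolynomial.eval₂Hom φ m) fun a ha => ?_, fun a => ?_, ?_⟩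
    · refine (Ideal.span_le (I := RingHom.ker (MvPolynomial.eval₂Hom φ m))).2 ?_ ha
      rintro _ ⟨p, rfl⟩
      simp [RingHom.mem_ker, H p.1 p.2]
    · exact MvPolynomial.eval₂Hom_C φ _ a
    · exact funext fun p => MvPolynomial.eval₂Hom_X' φ m p
  ext C _ f g h1 h2 := Ideal.Quotient.ringHom_ext (MvPolynomial.ringHom_ext h1 (congrFun h2))

instance (π : Matrix (Fin N) (Fin N) A) : Algebra.FinitePresentation A (CV π) :=
  Algebra.FinitePresentation.quotient (Submodule.fg_span (Set.finite_range _))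

theorem cv_smooth (h : R1 π) : Algebra.Smooth A (CV π) :=
  have := (uv π).etale h
  ⟨inferInstance, inferInstance⟩

theorem cv_ff (h : R1 π) : Module.FaithfullyFlat A (CV π) :=
  have := cv_smooth h
  (uv π).ff h

/-! ### Smooth algebras -/

section Sm

variable {A A' : SmAlg} {π : Matrix (Fin N) (Fin N) A.R} {π' : Matrix (Fin N) (Fin N) A'.R}

/-- The double cover of a smooth algebra. -/
def cA (h : R1 π) : SmAlg :=
  have := cv_smooth h
  have : Algebra.Smooth ℂ (CV π) := Algebra.Smooth.comp ℂ A.R _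
  ⟨CV π⟩

/-- The structure map. -/
def cI (h : R1 π) : A.Hm (cA h) := IsScalarTower.toAlgHom ℂ A.R (CV π)

/-- The unit vector. -/
def cN (h : R1 π) : Fin N → (cA h).R := cn π

theorem c_uv (h : R1 π) : UV (cI h).r π (cN h) := uv π

theorem c_ax (h : R1 π) : Ax (π.map (cI h)) (cN h) := (uv π).ax

/-- The universal property. -/
def cL (h : R1 π) {C : Type} [CommRing C] [Algebra ℂ C] (φ : A.R →ₐ[ℂ] C) (m : Fin N → C)
    (H : Ax (π.map φ) m) : (cA h).R →ₐ[ℂ] C :=
  ⟨((c_uv h).lift C φ m H).choose, fun c => by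
    rw [← (cI h).commutes]
    exact (((c_uv h).lift C φ m H).choose_spec.1 _).trans (φ.commutes c)⟩

theorem cL_i (h : R1 π) {C : Type} [CommRing C] [Algebra ℂ C] (φ : A.R →ₐ[ℂ] C) (m : Fin N → C)
    (H : Ax (π.map φ) m) (a : A.R) : cL h φ m H (cI h a) = φ a :=
  ((c_uv h).lift C φ m H).choose_spec.1 a

theorem cL_n (h : R1 π) {C : Type} [CommRing C] [Algebra ℂ C] (φ : A.R →ₐ[ℂ] C) (m : Fin N → C)
    (H : Ax (π.map φ) m) : cL h φ m H ∘ cN h = m :=
  ((c_uv h).lift C φ m H).choose_spec.2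

theorem c_ext (h : R1 π) {C : Type} [CommRing C] [Algebra ℂ C] {f g : (cA h).R →ₐ[ℂ] C}
    (h1 : ∀ a, f (cI h a) = g (cI h a)) (h2 : f ∘ cN h = g ∘ cN h) : f = g :=
  AlgHom.coe_ringHom_injective ((c_uv h).ext C f g h1 h2)

theorem c_et (h : R1 π) : (cI h).r.FormallyEtale :=
  RingHom.formallyEtale_algebraMap.2 ((uv π).etale h)

theorem c_flat (h : R1 π) : (cI h).r.Flat :=
  have := cv_smooth h
  (RingHom.flat_algebraMap_iff (R := A.R) (S := CV π)).2 inferInstance

theorem c_inj (h : R1 π) : Function.Injective (cI h) :=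
  have := cv_ff h
  FaithfulSMul.algebraMap_injective A.R (CV π)

theorem c_inv (h : R1 π) (σ : (cA h).Hm (cA h)) (h1 : ∀ a, σ (cI h a) = cI h a)
    (h2 : σ ∘ cN h = -cN h) (b : (cA h).R) (hb : σ b = b) : ∃ a, cI h a = b :=
  have := cv_ff h
  (uv π).inv h σ.r h1 h2 b hb

theorem c_po (h : R1 π) (h' : R1 π') (φ : A.Hm A') {g : Matrix (Fin N) (Fin N) A'.R}
    (g1 : gᵀ * g = 1) (g3 : g * π.map φ = π' * g) (ψ : (cA h).Hm (cA h'))
    (h1 : ∀ a, ψ (cI h a) = cI h' (φ a)) (h2 : g.map (cI h') *ᵥ (ψ ∘ cN h) = cN h') :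
    PO φ.r (cI h).r (cI h').r ψ.r := by
  refine PO.of_alg h1 (c_flat h) ?_
  letI := φ.r.toAlgebra
  letI := (cI h).r.toAlgebra
  letI := (cI h').r.toAlgebra
  letI := ψ.r.toAlgebra
  letI := ((cI h').r.comp φ.r).toAlgebra
  haveI : IsScalarTower A.R A'.R (cA h').R := .of_algebraMap_eq fun _ => rfl
  haveI : IsScalarTower A.R (cA h).R (cA h').R := .of_algebraMap_eq fun x => (h1 x).symm
  exact UV.push (c_uv h) (c_uv h') g1 g3 h2

theorem c_split (h : R1 π) (ev : (cA h).Hm A) (σ : (cA h).Hm (cA h)) (h0 : ∀ a, ev (cI h a) = a)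
    (h1 : ∀ a, σ (cI h a) = cI h a) (h2 : σ ∘ cN h = -cN h) :
    ∃ ε : (cA h).R, ε * ε = ε ∧ ε + σ ε = 1 ∧ σ ε * ε = 0 ∧ ev ε = 1 ∧
      ∀ b, ε * b = ε * cI h (ev b) :=
  (c_uv h).split h ev.r σ.r h0 h1 h2

end Sm

end

end Vale.Agent.P286EJG
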