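import Vale.Agent.P286EP.Qp2
import Vale.Agent.P286EN.Grp
import Vale.Agent.P286EJG.Cov

/-!
# From unit vectors to projectors
-/

set_option linter.all false

namespace Vale.Agent.P286EJG

open CategoryTheory Matrix Polynomial Vale.Agent.P286 Vale.Agent.P286E Vale.Agent.P286EP
open Vale.Agent.P286ET (Ix)
open Vale.Agent.P286EB hiding PO
open Vale.Agent.P286EN (rm rm_eq rm_mulVec cross_mulVec)

noncomputable section

section Mat

variable {A : Type} [CommRing A] [Algebra ℂ A]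

theorem one_map3 : (1 : Matrix (Fin 3) (Fin 3) ℂ).map (algebraMap ℂ A) = 1 :=
  Matrix.map_one _ (map_zero _) (map_one _)

theorem pt_orth {h : Matrix (Fin 3) (Fin 3) A} (hh : SO3.Pt h) : hᵀ * h = 1 := by
  have h1 : hᵀ * (1 : Matrix (Fin 3) (Fin 3) ℂ).map (algebraMap ℂ A) * h =
    (1 : Matrix (Fin 3) (Fin 3) ℂ).map (algebraMap ℂ A) := hh.form
  rwa [one_map3, Matrix.mul_one] at h1

theorem y3_mulVec (ξ m : Fin 3 → A) : y3 ξ *ᵥ m = algebraMap ℂ A Complex.I • (ξ ⨯₃ m) :=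
  rm_mulVec (algebraMap ℂ A) ξ m

theorem i_unit : IsUnit (algebraMap ℂ A Complex.I) := (IsUnit.mk0 _ Complex.I_ne_zero).map _

theorem mat_ext {P Q : Matrix (Fin 3) (Fin 3) A} (h : ∀ m, P *ᵥ m = Q *ᵥ m) : P = Q :=
  Matrix.toLin'.injective (LinearMap.ext h)

theorem hy_iff {h : Matrix (Fin 3) (Fin 3) A} (hh : SO3.Pt h) (ξ η : Fin 3 → A) (c : A) :
    h * y3 ξ = c • (y3 η * h) ↔ h *ᵥ ξ = c • η := by
  have h1 := pt_orth hh
  have h2 : h.det = 1 := hh.det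
  have h3 : h.adjugate = hᵀ := by
    rw [← Matrix.one_mul h.adjugate, ← h1, Matrix.mul_assoc, mul_adjugate, h2, one_smul,
      Matrix.mul_one]
  have h4 : h * y3 ξ = y3 (h *ᵥ ξ) * h := mat_ext fun m => by
    rw [← mulVec_mulVec, ← mulVec_mulVec, y3_mulVec, y3_mulVec, cross_mulVec, h3,
      transpose_transpose, mulVec_smul]
  have h5 : c • (y3 η * h) = y3 (c • η) * h := mat_ext fun m => by
    rw [smul_mulVec, ← mulVec_mulVec, ← mulVec_mulVec, y3_mulVec, y3_mulVec, map_smul,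
      LinearMap.smul_apply, smul_comm]
  rw [h4, h5]
  refine ⟨fun H => ?_, fun H => by rw [H]⟩
  have := congrArg (· * hᵀ) H
  simp only [Matrix.mul_assoc, mul_eq_one_comm.1 h1, Matrix.mul_one] at this
  exact P286EN.ht_inj (G := SO3) ok_SO3 this

theorem two_unit : IsUnit (2 : A) :=
  map_ofNat (algebraMap ℂ A) 2 ▸ (IsUnit.mk0 (2 : ℂ) two_ne_zero).map (algebraMap ℂ A)

theorem prj_r1 {ξ : Fin 3 → A} {π : Matrix (Fin 3) (Fin 3) A} (h : Prj SO3 ξ π) : R1 π := by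
  have h1 : πᵀ * (1 : Matrix (Fin 3) (Fin 3) ℂ).map (algebraMap ℂ A) =
    (1 : Matrix (Fin 3) (Fin 3) ℂ).map (algebraMap ℂ A) * π := h.adj
  have h2 : trace π = ((3 : ℕ) : A) - 2 := h.tr
  rw [one_map3, Matrix.mul_one, Matrix.one_mul] at h1
  exact ⟨two_unit, fun i j => (congrFun (congrFun h1 i) j).symm, h2.trans (by norm_num), h.rk⟩

theorem ax_vv (n : Fin 3 → A) : Ax (vecMulVec n n) n := fun _ _ => rfl

theorem prj_vv {n : Fin 3 → A} (h : n ⬝ᵥ n = 1) (t : A) : Prj SO3 (t • n) (vecMulVec n n) := by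
  refine ⟨?_, ?_, fun i j k l => ?_, ?_⟩
  · change (vecMulVec n n)ᵀ * (1 : Matrix (Fin 3) (Fin 3) ℂ).map (algebraMap ℂ A) =
      (1 : Matrix (Fin 3) (Fin 3) ℂ).map (algebraMap ℂ A) * vecMulVec n n
    rw [one_map3, Matrix.mul_one, Matrix.one_mul, transpose_vecMulVec]
  · change trace (vecMulVec n n) = ((3 : ℕ) : A) - 2
    rw [trace_vecMulVec, h]; norm_num
  · change n i * n j * (n k * n l) = n i * n l * (n k * n j)
    ring
  · change y3 (t • n) * vecMulVec n n = 0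
    refine mat_ext fun m => ?_
    rw [← mulVec_mulVec, (ax_vv n).mulVec, y3_mulVec, zero_mulVec]
    simp

theorem ker_ax {ξ n : Fin 3 → A} {π : Matrix (Fin 3) (Fin 3) A} (h : R1 π) (H : Ax π n)
    (k : y3 ξ * π = 0) : (ξ ⬝ᵥ n) • n = ξ := by
  have h1 := congrArg (· *ᵥ n) k
  simp only [← mulVec_mulVec, H.mulVec, H.dot h, one_smul, y3_mulVec, zero_mulVec] at h1
  have h2 : ξ ⨯₃ n = 0 := i_unit.smul_eq_zero.1 h1
  have h3 := cross_cross_eq_smul_sub_smul' n ξ n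
  rw [h2, map_zero, H.dot h, one_smul, eq_comm, sub_eq_zero] at h3
  exact h3.symm

end Mat

section St

variable (S : Star)

/-- The map to the double cover. -/
def of2 : ∀ i : Ix, S.C i →ₐ[ℂ] S.C2 i
  | .a => Dc.of S.fa
  | .b => AlgHom.id ℂ S.Cb
  | .n => Dc.of (S.ka S.fa)

/-- The square root. -/
def t2 : ∀ i : Ix, S.C2 i
  | .a => Dc.t S.fa
  | .b => (1 : S.Cb)
  | .n => Dc.t (S.ka S.fa)

/-- The arrow with a given sign. -/
def ar (ε : ℤˣ) : ∀ i j : Ix, i ≤ j → Ar i j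
  | .a, .a, _ => .aa ε
  | .b, .b, _ => .bb
  | .n, .n, _ => .nn ε
  | .a, .n, _ => .an ε
  | .b, .n, _ => .bn
  | .a, .b, h => absurd h (by rintro (h | h) <;> cases h)
  | .b, .a, h => absurd h (by rintro (h | h) <;> cases h)
  | .n, .a, h => absurd h (by rintro (h | h) <;> cases h)
  | .n, .b, h => absurd h (by rintro (h | h) <;> cases h)

theorem ar_le {i j : Ix} (α : Ar i j) : i ≤ j := by
  cases α <;> first | exact le_rfl | exact Ix.le_n _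

theorem exists_ar {i j : Ix} (α : Ar i j) : ∃ ε, α = ar ε i j (ar_le α) := by
  cases α
  exacts [⟨_, rfl⟩, ⟨_, rfl⟩, ⟨_, rfl⟩, ⟨1, rfl⟩, ⟨1, rfl⟩]

theorem ar_comp (ε η : ℤˣ) {i j k : Ix} (h : i ≤ j) (h' : j ≤ k) :
    (ar ε i j h).comp (ar η j k h') = ar (ε * η) i k (h.trans h') := by
  rcases h with rfl | rfl <;> rcases h' with rfl | rfl <;> cases i <;> rfl

theorem ar_one (i : Ix) (h : i ≤ i) : ar 1 i i h = Ar.one i := by cases i <;> rfl

theorem ar_b (ε : ℤˣ) {i : Ix} (hi : i = .b) (h : i ≤ i) : ar ε i i h = Ar.one i := by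
  subst hi; rfl

theorem of2_f (i : Ix) : of2 S i (S.f i) = t2 S i ^ 2 * S.f2 i := by
  cases i
  · exact ((mul_one _).trans (Dc.t_sq S.fa)).symm
  · exact ((congrArg (· * S.fb) (one_pow 2)).trans (one_mul _)).symm
  · exact ((mul_one _).trans (Dc.t_sq (S.ka S.fa))).symm

theorem f2_ne {i : Ix} (h : i ≠ .b) : S.f2 i = 1 := by
  cases i
  · rfl
  · exact absurd rfl h
  · rfl

theorem t2_b {i : Ix} (h : i = .b) : t2 S i = 1 := by subst h; rfl

theorem κ2_of {i j : Ix} (α : Ar i j) (z : S.C i) :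
    S.κ2 α (of2 S i z) = of2 S j (S.κ i j (ar_le α) z) := by
  cases α
  · exact Dc.sg_of _ _ _
  · exact Dc.map_of _ _ _ _
  · exact Dc.sg_of _ _ _
  · rfl
  · rfl

theorem sgn_t {B : Type} [CommRing B] [Algebra ℂ B] (ε : ℤˣ) {t o z : B}
    (hz : z = ((ε : ℤ) : B) * t) (h : o = 1) : z * ((ε : ℤ) : B) = o * t := by
  rw [h, hz]; linear_combination t * sgn_sq (B := B) ε

theorem κ2_t {i j : Ix} (α : Ar i j) :
    S.κ2 α (t2 S i) * S.c2 α = of2 S j (S.u S.c i j) * t2 S j := by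
  cases α
  · exact sgn_t _ (Dc.sg_t _ _) (map_one (Dc.of S.fa))
  · exact sgn_t _ (Dc.map_t _ _ _) (map_one (Dc.of (S.ka S.fa)))
  · exact sgn_t _ (Dc.sg_t _ _) (map_one (Dc.of (S.ka S.fa)))
  · rfl
  · exact (Star.one_c ((Dc.of (S.ka S.fa)).comp S.kb) _).symm

theorem r2_eq {i j : Ix} (α : Ar i j) : S.r2 α = of2 S j (S.u S.r i j) := by
  cases α
  · exact (map_one (Dc.of S.fa)).symm
  · exact (map_one (Dc.of (S.ka S.fa))).symm
  · exact (map_one (Dc.of (S.ka S.fa))).symm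
  · rfl
  · rfl

theorem r2_self {i : Ix} (α : Ar i i) : S.r2 α = 1 := by cases α <;> rfl

theorem c2_ar (ε : ℤˣ) {i j : Ix} (h : i ≤ j) (hi : i ≠ .b) :
    S.c2 (ar ε i j h) = ((ε : ℤ) : S.C2 j) := by
  rcases h with rfl | rfl <;> cases i <;> first | rfl | exact absurd rfl hi

variable {S} {A : Type} [CommRing A] [Algebra ℂ A]

theorem c2_sq {i j : Ix} (α : Ar i j) (hi : i ≠ .b) (x : S.C2 j →ₐ[ℂ] A) :
    x (S.c2 α) * x (S.c2 α) = 1 := by
  obtain ⟨ε, h⟩ := exists_ar α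
  rw [h, c2_ar S ε _ hi, map_intCast, ← sq, sgn_sq]

theorem c2_ext (i : Ix) {x y : S.C2 i →ₐ[ℂ] A} (h : ∀ z, x (of2 S i z) = y (of2 S i z))
    (ht : x (t2 S i) = y (t2 S i)) : x = y := by
  cases i
  · exact Dc.ext h ht
  · exact AlgHom.ext h
  · exact Dc.ext h ht

theorem c2_lift {i : Ix} (hi : i ≠ .b) (x : S.C i →ₐ[ℂ] A) (t : A) (h : t ^ 2 = x (S.f i)) :
    ∃ y : S.C2 i →ₐ[ℂ] A, (∀ z, y (of2 S i z) = x z) ∧ y (t2 S i) = t := by
  cases i
  · exact ⟨Dc.lift S.fa x t h, Dc.lift_of _ _ _ _, Dc.lift_t _ _ _ _⟩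
  · exact absurd rfl hi
  · exact ⟨Dc.lift (S.ka S.fa) x t h, Dc.lift_of _ _ _ _, Dc.lift_t _ _ _ _⟩

end St

variable {E : Ell} {e : Rt E}

/-- The index. -/
def qi (Z : QO (D2 e)) : Ix := Z.i

/-- The point. -/
def qx (Z : QO (D2 e)) : (ES e).C2 (qi Z) →ₐ[ℂ] Z.A.R := Z.x

theorem q_sq (Z : QO (D2 e)) : Z.Y ⬝ᵥ Z.Y = qx Z ((ES e).f2 (qi Z)) := Z.sq

theorem q_one (Z : QO (D2 e)) (h : qi Z ≠ .b) : Z.Y ⬝ᵥ Z.Y = 1 := by
  rw [q_sq, f2_ne _ h, map_one]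

/-- The arrow of indices. -/
def qa {P Q : QO (D2 e)} (u : QM SO3 P Q) : Ar (qi P) (qi Q) := u.α

/-- The matrix. -/
def qh {P Q : QO (D2 e)} (u : QM SO3 P Q) : Matrix (Fin 3) (Fin 3) Q.A.R := u.h

theorem q_hx {P Q : QO (D2 e)} (u : QM SO3 P Q) (z : (ES e).C2 (qi P)) :
    u.φ (qx P z) = qx Q ((ES e).κ2 (qa u) z) := u.hx z

theorem q_hY {P Q : QO (D2 e)} (u : QM SO3 P Q) :
    qh u *ᵥ (u.φ ∘ P.Y) = qx Q ((ES e).c2 (qa u)) • Q.Y := (hy_iff (h := qh u) u.pt _ _ _).1 u.hY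

/-- The projector. -/
def pi3 {A : Type} [CommRing A] : Ix → (Fin 3 → A) → Matrix (Fin 3) (Fin 3) A
  | .b, _ => 1
  | _, n => vecMulVec n n

theorem pi3_ne {A : Type} [CommRing A] {i : Ix} (h : i ≠ .b) (n : Fin 3 → A) :
    pi3 i n = vecMulVec n n := by
  cases i
  · rfl
  · exact absurd rfl h
  · rfl

theorem pi3_b {A : Type} [CommRing A] {i : Ix} (h : i = .b) (n : Fin 3 → A) : pi3 i n = 1 := by
  subst h; rfl

theorem x_ub' {A : Type} [CommRing A] [Algebra ℂ A] {i : Ix} (h : i = .b)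
    (x : (ES e).C i →ₐ[ℂ] A) : IsUnit (gv e (x (pf e i X))) := by subst h; exact x_ub e x

theorem x_un' {A : Type} [CommRing A] [Algebra ℂ A] {i : Ix} (h : i = .n)
    (x : (ES e).C i →ₐ[ℂ] A) : IsUnit (fv E (x (pf e i X))) := by subst h; exact x_un e x

/-- The point of the chart. -/
def qo (Z : QO (D2 e)) : (ES e).C (qi Z) →ₐ[ℂ] Z.A.R := (qx Z).comp (of2 _ _)

/-- The coordinate. -/
def qp (Z : QO (D2 e)) : Z.A.R := qo Z (pf e _ X)

/-- The functor on objects. -/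
def job (Z : QO (D2 e)) : P286EB.PO e SO3 where
  i := qi Z
  A := Z.A
  x := qp Z
  ξ := qx Z (t2 _ _) • Z.Y
  π := pi3 (qi Z) Z.Y
  pt := by
    refine ⟨?_, fun h => ⟨x_ub' h _, pi3_b h _⟩, fun h => x_un' h _, fun h => ?_⟩
    · rw [qp, ← x_f, smul_dotProduct, dotProduct_smul, q_sq, qo, AlgHom.comp_apply, of2_f, map_mul,
        map_pow, smul_eq_mul, smul_eq_mul, sq, mul_assoc]
    · rw [pi3_ne h]
      exact prj_vv (q_one Z h) _

theorem q_ct {P : Ix} (Q : QO (D2 e)) (α : Ar P (qi Q)) :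
    qx Q ((ES e).κ2 α (t2 _ P)) * qx Q ((ES e).c2 α) =
      kc e P (qi Q) (qp Q) * qx Q (t2 _ _) := by
  rw [← map_mul, κ2_t, map_mul]
  exact congrArg (· * _) (x_kc e P (qi Q) (qo Q))

theorem q_kx {P : Ix} (Q : QO (D2 e)) (α : Ar P (qi Q)) :
    qx Q ((ES e).κ2 α (of2 _ P (pf e P X))) = kx e P (qi Q) (qp Q) := by
  rw [κ2_of]
  exact x_kx e (ar_le α) (qo Q)

theorem q_kr {P : Ix} (Q : QO (D2 e)) (α : Ar P (qi Q)) :
    qx Q ((ES e).r2 α) = kr e P (qi Q) (qp Q) := by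
  rw [r2_eq]
  exact x_kr e P (qi Q) (qo Q)

theorem comp_smul {A B : Type} [CommRing A] [Algebra ℂ A] [CommRing B] [Algebra ℂ B]
    (φ : A →ₐ[ℂ] B) (t : A) (n : Fin 3 → A) : φ ∘ (t • n) = φ t • (φ ∘ n) :=
  funext fun i => map_mul φ t (n i)

theorem vv_conj {A : Type} [CommRing A] {h : Matrix (Fin 3) (Fin 3) A} (h1 : hᵀ * h = 1)
    {m n : Fin 3 → A} {c : A} (hc : c * c = 1) (H : h *ᵥ m = c • n) :
    h * vecMulVec m m = vecMulVec n n * h := by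
  have h2 : c • (n ᵥ* h) = m := by
    rw [← smul_vecMul, ← H, vecMul_mulVec, h1, vecMul_one]
  rw [mul_vecMulVec, vecMulVec_mul, H, smul_vecMulVec]
  nth_rewrite 1 [← h2]
  rw [vecMulVec_smul, smul_smul, hc, one_smul]

/-- The functor on morphisms. -/
def jmap {P Q : QO (D2 e)} (u : QM SO3 P Q) : PM (job P) (job Q) where
  le := ar_le (qa u)
  φ := u.φ
  h := u.h
  pt := u.pt
  hx := (q_hx u _).trans (q_kx Q (qa u))
  hY := (hy_iff (h := qh u) u.pt _ _ _).2 (by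
    change qh u *ᵥ (u.φ ∘ (qx P (t2 _ _) • P.Y)) =
      kc e (qi P) (qi Q) (qp Q) • qx Q (t2 _ _) • Q.Y
    rw [comp_smul, mulVec_smul, q_hY, q_hx, smul_smul, smul_smul, q_ct])
  hπ (hi : qi P ≠ .b) := by
    change qh u * (pi3 (qi P) P.Y).map u.φ = pi3 (qi Q) Q.Y * qh u
    rw [pi3_ne hi, pi3_ne (ne_b (ar_le (qa u)) hi)]
    refine Eq.trans (congrArg (qh u * ·) ?_) (vv_conj (pt_orth u.pt) (c2_sq (qa u) hi (qx Q))
      (q_hY u))
    exact Matrix.ext fun i j => map_mul u.φ _ _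

end

end Vale.Agent.P286EJG
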